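import Vale.Agent.P080C1.Caccio.IdentityDefs

/-!
Elementary inequalities for the flux of the energy identity.
-/

noncomputable section

namespace Vale.Agent.P080C1.Caccio

lemma abs_fq_le {t : ℝ} (h1 : -(9 / 10) ≤ t) (h2 : t ≤ 1) : |fq t| ≤ 20 * (1 - t) := by
  rw [fq, abs_div, abs_of_nonneg (show (0 : ℝ) ≤ 1 - t by linarith),
    abs_of_pos (show (0 : ℝ) < 1 + t by linarith), div_le_iff₀ (by linarith)]
  nlinarith

lemma abs_Fq_le {t : ℝ} (h1 : -(9 / 10) ≤ t) (h2 : t ≤ 1) : |Fq t| ≤ 20 * (1 - t) ^ 2 := by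
  have hu : (0 : ℝ) < (1 + t) / 2 := by linarith
  have a1 := Real.log_le_sub_one_of_pos hu
  have a2 := Real.one_sub_inv_le_log_of_pos hu
  have e : 1 - ((1 + t) / 2)⁻¹ = -((1 - t) / (1 + t)) := by
    have : (1 : ℝ) + t ≠ 0 := by linarith
    field_simp
    ring
  rw [e] at a2
  have a3 : (1 - t) / (1 + t) - (1 - t) / 2 ≤ 10 * (1 - t) ^ 2 := by
    have : (1 - t) / (1 + t) - (1 - t) / 2 = (1 - t) ^ 2 / (2 * (1 + t)) := by
      have : (1 : ℝ) + t ≠ 0 := by linarith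
      field_simp
      ring
    rw [this, div_le_iff₀ (by linarith)]
    nlinarith [sq_nonneg (1 - t)]
  unfold Fq
  rw [abs_le]
  constructor <;> nlinarith [sq_nonneg (1 - t)]

/-- Consequences of `qval ≤ d` at a nonzero vector with small `d`. -/
lemma good_facts {p2 r d : ℝ} (hr : 0 < r) (hp : |p2| ≤ r) (hd : 0 ≤ d) (hd' : d ≤ 1 / 4)
    (hq : 7 / 8 * r ^ 2 - p2 + p2 ^ 2 / 8 ≤ d) :
    r ≤ 3 / 2 ∧ 1 - p2 / r ≤ 8 * (|r - 1| + d) ∧ |r - 1| ≤ 1 - p2 + 4 * d := by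
  obtain ⟨hp1, hp2⟩ := abs_le.1 hp
  have hr2 : r ≤ 3 / 2 := by nlinarith [sq_nonneg p2, sq_nonneg (r - 2)]
  have key : 5 / 8 * (r - p2) ≤ r - r ^ 2 + d := by
    have : (r - p2) * (5 / 8) ≤ (r - p2) * (1 - (r + p2) / 8) :=
      mul_le_mul_of_nonneg_left (by linarith) (by linarith)
    nlinarith
  have habs := abs_le.1 (le_refl |r - 1|)
  refine ⟨hr2, ?_, ?_⟩
  · rcases le_or_gt (1 / 2) r with h | h
    · rw [one_sub_div hr.ne', div_le_iff₀ hr]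
      have h1 : r - r ^ 2 ≤ r * |r - 1| := by nlinarith [habs.1]
      have h2 : 8 * (|r - 1| + d) * (1 / 2) ≤ 8 * (|r - 1| + d) * r :=
        mul_le_mul_of_nonneg_left h (by positivity)
      nlinarith [abs_nonneg (r - 1)]
    · have h1 : -(p2 / r) ≤ 1 := by rw [← neg_div, div_le_one hr]; linarith
      linarith [habs.1]
  · rcases le_or_gt r 1 with h | h
    · rw [abs_of_nonpos (by linarith)]; linarith
    · rw [abs_of_nonneg (by linarith)]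
      nlinarith

/-- The monotonicity direction keeps the unit gradient away from the south pole. -/
lemma neg_lt_third {N e : Fin 3 → ℝ} (hN : ∑ i, N i ^ 2 = 1) (he : ∑ i, e i ^ 2 = 1)
    (h2 : 1 / 2 ≤ e 2) (hpos : 0 < ∑ i, N i * e i) : -(9 / 10) < N 2 := by
  simp only [Fin.sum_univ_three] at hN he hpos
  by_contra hn
  rw [not_lt] at hn
  have cs : (N 0 * e 0 + N 1 * e 1) ^ 2 ≤ (N 0 ^ 2 + N 1 ^ 2) * (e 0 ^ 2 + e 1 ^ 2) := by
    nlinarith [sq_nonneg (N 0 * e 1 - N 1 * e 0)]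
  have h3 : (N 2 * e 2) ^ 2 < (N 0 * e 0 + N 1 * e 1) ^ 2 := by
    have a0 : N 2 * e 2 ≤ 0 := mul_nonpos_of_nonpos_of_nonneg (by linarith) (by linarith)
    exact sq_lt_sq' (by linarith) (by linarith)
  have a1 : (81 / 100 : ℝ) ≤ N 2 ^ 2 := by nlinarith
  have a2 : (1 / 4 : ℝ) ≤ e 2 ^ 2 := by nlinarith
  nlinarith

/-- The axial component of a tangential vector. -/
lemma tangent_third {N b : Fin 3 → ℝ} (hN : ∑ i, N i ^ 2 = 1) (hb : ∑ i, b i * N i = 0) :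
    b 2 ^ 2 ≤ (1 - N 2 ^ 2) * ∑ i, b i ^ 2 := by
  simp only [Fin.sum_univ_three] at hN hb ⊢
  have e1 : N 0 * b 0 + N 1 * b 1 = -(N 2 * b 2) := by linarith
  have e2 : (N 0 * b 0 + N 1 * b 1) ^ 2 ≤ (N 0 ^ 2 + N 1 ^ 2) * (b 0 ^ 2 + b 1 ^ 2) := by
    nlinarith [sq_nonneg (N 0 * b 1 - N 1 * b 0)]
  rw [e1] at e2
  nlinarith

end Vale.Agent.P080C1.Caccio
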