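import Vale.Agent.P080C1.Defs

/-!
The capped identity is continuously differentiable; the regularised defect of the capped norm.
-/

noncomputable section

open Set Filter Topology

namespace Vale.Agent.P080C1.Caccio

lemma hasDerivAt_pos_sq (x : ℝ) :
    HasDerivAt (fun t : ℝ => max 0 t ^ 2) (2 * max 0 x) x := by
  rcases lt_trichotomy x 0 with h | h | h
  · rw [max_eq_left h.le, mul_zero]
    refine (hasDerivAt_const x (0 : ℝ)).congr_of_eventuallyEq ?_
    filter_upwards [gt_mem_nhds h] with t ht
    simp [max_eq_left ht.le]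
  · subst h
    rw [max_self, mul_zero, hasDerivAt_iff_isLittleO]
    simp only [max_self, sub_zero, smul_zero, zero_pow two_ne_zero]
    rw [Asymptotics.isLittleO_iff]
    intro c hc
    filter_upwards [Metric.ball_mem_nhds (0 : ℝ) hc] with t ht
    rw [Metric.mem_ball, dist_zero_right, Real.norm_eq_abs] at ht
    rw [Real.norm_eq_abs, Real.norm_eq_abs, abs_pow]
    have : |max 0 t| ≤ |t| := by
      rcases le_total t 0 with h | h
      · simp [max_eq_left h]
      · simp [max_eq_right h]
    nlinarith [abs_nonneg (max 0 t), abs_nonneg t]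
  · rw [max_eq_right h.le]
    have := (hasDerivAt_pow 2 x)
    simp only [Nat.cast_ofNat, Nat.add_one_sub_one, pow_one] at this
    refine this.congr_of_eventuallyEq ?_
    filter_upwards [lt_mem_nhds h] with t ht
    simp [max_eq_right ht.le]

lemma capR_eq (t : ℝ) :
    capR t = t - max 0 (t - 3 / 2) ^ 2 / 2 + max 0 (t - 5 / 2) ^ 2 / 2 := by
  unfold capR
  split_ifs with h1 h2
  · rw [max_eq_left (by linarith), max_eq_left (by linarith)]; ring
  · rw [max_eq_right (by linarith), max_eq_left (by linarith)]; ring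
  · rw [max_eq_right (by linarith), max_eq_right (by linarith)]; ring

/-- The derivative of `capR`. -/
def capD (t : ℝ) : ℝ := 1 - max 0 (t - 3 / 2) + max 0 (t - 5 / 2)

lemma hasDerivAt_capR (t : ℝ) : HasDerivAt capR (capD t) t := by
  have h1 := (hasDerivAt_pos_sq (t - 3 / 2)).comp t ((hasDerivAt_id t).sub_const (3 / 2))
  have h2 := (hasDerivAt_pos_sq (t - 5 / 2)).comp t ((hasDerivAt_id t).sub_const (5 / 2))
  have h := ((hasDerivAt_id t).sub (h1.div_const 2)).add (h2.div_const 2)
  rw [show capR = fun t => t - max 0 (t - 3 / 2) ^ 2 / 2 + max 0 (t - 5 / 2) ^ 2 / 2 from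
    funext capR_eq]
  have e : capD t =
      1 - 2 * max 0 (t - 3 / 2) * 1 / 2 + 2 * max 0 (t - 5 / 2) * 1 / 2 := by unfold capD; ring
  rw [e]
  exact h

lemma continuous_capD : Continuous capD := by unfold capD; fun_prop

lemma contDiff_capR : ContDiff ℝ 1 capR := by
  rw [contDiff_one_iff_deriv]
  refine ⟨fun t => (hasDerivAt_capR t).differentiableAt, ?_⟩
  rw [funext fun t => (hasDerivAt_capR t).deriv]
  exact continuous_capD

lemma abs_capD_le (t : ℝ) : |capD t| ≤ 1 := by
  unfold capD
  rcases le_total t (3 / 2) with h | h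
  · rw [max_eq_left (by linarith), max_eq_left (by linarith)]; norm_num
  · rcases le_total t (5 / 2) with h' | h'
    · rw [max_eq_right (by linarith), max_eq_left (by linarith), abs_le]
      constructor <;> linarith
    · rw [max_eq_right (by linarith), max_eq_right (by linarith), abs_le]
      constructor <;> linarith

lemma capD_eq_zero {t : ℝ} (h : 5 / 2 ≤ t) : capD t = 0 := by
  rw [capD, max_eq_right (by linarith), max_eq_right (by linarith)]; ring

lemma abs_capR_sub_one {t : ℝ} (h : 0 ≤ t) : |capR t - 1| ≤ 1 := by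
  unfold capR
  rw [abs_le]
  split_ifs with h1 h2 <;> constructor <;> nlinarith

lemma capR_of_le {t : ℝ} (h : t ≤ 3 / 2) : capR t = t := if_pos h

/-- The regularised defect of the capped norm. -/
def defect (ε t : ℝ) : ℝ := Real.sqrt ((capR t - 1) ^ 2 + ε ^ 2)

lemma le_defect (ε t : ℝ) : |capR t - 1| ≤ defect ε t :=
  Real.abs_le_sqrt (by nlinarith [sq_nonneg ε])

lemma eps_le_defect {ε : ℝ} (hε : 0 ≤ ε) (t : ℝ) : ε ≤ defect ε t :=
  (le_abs_self ε).trans (Real.abs_le_sqrt (by nlinarith [sq_nonneg (capR t - 1)]))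

lemma defect_pos {ε : ℝ} (hε : 0 < ε) (t : ℝ) : 0 < defect ε t :=
  hε.trans_le (eps_le_defect hε.le t)

lemma defect_le {ε : ℝ} (hε : 0 ≤ ε) (t : ℝ) : defect ε t ≤ |capR t - 1| + ε := by
  rw [defect, Real.sqrt_le_left (by positivity)]
  nlinarith [sq_abs (capR t - 1), abs_nonneg (capR t - 1)]

/-- The derivative of `defect`. -/
def defectD (ε t : ℝ) : ℝ := (capR t - 1) / defect ε t * capD t

lemma hasDerivAt_defect {ε : ℝ} (hε : 0 < ε) (t : ℝ) :
    HasDerivAt (defect ε) (defectD ε t) t := by
  have h0 : (capR t - 1) ^ 2 + ε ^ 2 ≠ 0 := by positivity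
  have h : HasDerivAt (defect ε) (((2 : ℕ) : ℝ) * (capR t - 1) ^ (2 - 1) * capD t /
      (2 * Real.sqrt ((capR t - 1) ^ 2 + ε ^ 2))) t :=
    ((((hasDerivAt_capR t).sub_const 1).pow 2).add_const (ε ^ 2)).sqrt h0
  have hd := defect_pos hε t
  convert h using 1
  rw [defectD, defect]
  push_cast
  field_simp

lemma abs_defectD_le {ε : ℝ} (hε : 0 < ε) (t : ℝ) :
    |defectD ε t| ≤ if t ≤ 5 / 2 then 1 else 0 := by
  split_ifs with h
  · rw [defectD, abs_mul]
    refine mul_le_one₀ ?_ (abs_nonneg _) (abs_capD_le t)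
    rw [abs_div, abs_of_pos (defect_pos hε t), div_le_one (defect_pos hε t)]
    exact le_defect ε t
  · simp [defectD, capD_eq_zero (le_of_not_ge h)]

lemma continuous_defectD {ε : ℝ} (hε : 0 < ε) : Continuous (defectD ε) := by
  have h1 : Continuous (defect ε) :=
    Real.continuous_sqrt.comp (((contDiff_capR.continuous.sub continuous_const).pow 2).add
      continuous_const)
  exact ((contDiff_capR.continuous.sub continuous_const).div h1 fun t =>
    (defect_pos hε t).ne').mul continuous_capD

end Vale.Agent.P080C1.Caccio
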