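import Vale.Agent.P080C1.Defs

/-!
Integrals over boxes of three-dimensional space as iterated integrals, and a planar
Gagliardo-Nirenberg inequality.
-/

noncomputable section

open MeasureTheory Set Filter Topology

namespace Vale.Agent.P080C1.Caccio

/-- The point with the given coordinates. -/
def pt (t : ℝ) (z : ℝ × ℝ) : E3 := !₂[z.1, z.2, t]

@[simp] lemma pt_zero (t : ℝ) (z : ℝ × ℝ) : pt t z 0 = z.1 := rfl
@[simp] lemma pt_one (t : ℝ) (z : ℝ × ℝ) : pt t z 1 = z.2 := rfl
@[simp] lemma pt_two (t : ℝ) (z : ℝ × ℝ) : pt t z 2 = t := rfl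

/-- Coordinates, the axial one first. -/
def coordE : E3 ≃ᵐ ℝ × ℝ × ℝ :=
  ((MeasurableEquiv.toLp 2 (Fin 3 → ℝ)).symm.trans
    (MeasurableEquiv.piFinSuccAbove (fun _ : Fin 3 => ℝ) 2)).trans
    ((MeasurableEquiv.refl ℝ).prodCongr MeasurableEquiv.finTwoArrow)

lemma coordE_apply (x : E3) : coordE x = (x 2, x 0, x 1) := by
  simp [coordE, MeasurableEquiv.prodCongr, MeasurableEquiv.finTwoArrow,
    MeasurableEquiv.piFinSuccAbove]
  rfl

lemma coordE_symm (t : ℝ) (z : ℝ × ℝ) : coordE.symm (t, z) = pt t z := by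
  apply coordE.injective
  rw [MeasurableEquiv.apply_symm_apply, coordE_apply]
  rfl

lemma coordE_preserving : MeasurePreserving coordE volume (volume : Measure (ℝ × ℝ × ℝ)) := by
  refine ((MeasurePreserving.id (volume : Measure ℝ)).prod
    (volume_preserving_finTwoArrow ℝ)).comp ?_
  exact (volume_preserving_piFinSuccAbove (fun _ : Fin 3 => ℝ) 2).comp
    (PiLp.volume_preserving_ofLp (Fin 3))

/-- The closed square of half-width `w`. -/
def sq (w : ℝ) : Set (ℝ × ℝ) := Icc (-w) w ×ˢ Icc (-w) w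

/-- The closed box of half-width `w` and half-height `T`. -/
def box (w T : ℝ) : Set E3 := {y | |y 0| ≤ w ∧ |y 1| ≤ w ∧ |y 2| ≤ T}

lemma mem_box_pt {w T t : ℝ} {z : ℝ × ℝ} : pt t z ∈ box w T ↔ t ∈ Icc (-T) T ∧ z ∈ sq w := by
  simp only [box, sq, mem_ofPred_eq, pt_zero, pt_one, pt_two, mem_prod, mem_Icc, abs_le]
  tauto

lemma continuous_pt : Continuous fun q : ℝ × ℝ × ℝ => pt q.1 q.2 := by
  unfold pt
  fun_prop

lemma isCompact_sq (w : ℝ) : IsCompact (sq w) := isCompact_Icc.prod isCompact_Icc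

lemma box_eq_image (w T : ℝ) :
    box w T = (fun q : ℝ × ℝ × ℝ => pt q.1 q.2) '' (Icc (-T) T ×ˢ sq w) := by
  ext y
  constructor
  · intro hy
    have e : pt (y 2) (y 0, y 1) = y := by
      rw [← coordE_symm, ← coordE_apply, MeasurableEquiv.symm_apply_apply]
    exact ⟨(y 2, y 0, y 1), mem_box_pt.1 (e.symm ▸ hy), e⟩
  · rintro ⟨⟨t, z⟩, hq, rfl⟩
    exact mem_box_pt.2 hq

lemma isCompact_box (w T : ℝ) : IsCompact (box w T) := by
  rw [box_eq_image]
  exact (isCompact_Icc.prod (isCompact_sq w)).image continuous_pt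

lemma setIntegral_box_eq {w T : ℝ} {f : E3 → ℝ} :
    ∫ y in box w T, f y = ∫ q in Icc (-T) T ×ˢ sq w, f (pt q.1 q.2) := by
  have h := coordE_preserving.setIntegral_preimage_emb coordE.measurableEmbedding
    (fun q => f (coordE.symm q)) (Icc (-T) T ×ˢ sq w)
  have e : coordE ⁻¹' (Icc (-T) T ×ˢ sq w) = box w T := by
    ext y
    simp only [mem_preimage, coordE_apply, box, sq, mem_prod, mem_Icc, mem_ofPred_eq, abs_le]
    tauto
  simp only [MeasurableEquiv.symm_apply_apply] at h
  rw [← e, h]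
  exact setIntegral_congr_fun (measurableSet_Icc.prod (isCompact_sq w).measurableSet)
    fun q _ => by rw [← coordE_symm]

lemma continuousOn_pt_comp {w T : ℝ} {f : E3 → ℝ} (hf : ContinuousOn f (box w T)) :
    ContinuousOn (fun q : ℝ × ℝ × ℝ => f (pt q.1 q.2)) (Icc (-T) T ×ˢ sq w) :=
  hf.comp continuous_pt.continuousOn fun _ hq => mem_box_pt.2 hq

/-- Fubini on a box, the axial variable outside. -/
lemma setIntegral_box {w T : ℝ} {f : E3 → ℝ} (hf : ContinuousOn f (box w T)) :
    ∫ y in box w T, f y = ∫ t in Icc (-T) T, ∫ z in sq w, f (pt t z) := by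
  rw [setIntegral_box_eq, Measure.volume_eq_prod]
  exact setIntegral_prod _ ((continuousOn_pt_comp hf).integrableOn_compact
    (isCompact_Icc.prod (isCompact_sq w)))

/-- Fubini on a box, the axial variable inside. -/
lemma setIntegral_box' {w T : ℝ} {f : E3 → ℝ} (hf : ContinuousOn f (box w T)) :
    ∫ y in box w T, f y = ∫ z in sq w, ∫ t in Icc (-T) T, f (pt t z) := by
  have hi := (continuousOn_pt_comp hf).integrableOn_compact (μ := volume)
    (isCompact_Icc.prod (isCompact_sq w))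
  rw [Measure.volume_eq_prod] at hi
  rw [setIntegral_box_eq, Measure.volume_eq_prod, ← setIntegral_prod_swap]
  exact setIntegral_prod (fun q : (ℝ × ℝ) × ℝ => f (pt q.2 q.1)) hi.swap

lemma setIntegral_box_const {w T : ℝ} (hw : 0 ≤ w) (hT : 0 ≤ T) (c : ℝ) :
    ∫ _y in box w T, c = 2 * T * (2 * w) ^ 2 * c := by
  rw [setIntegral_box continuousOn_const, sq, Measure.volume_eq_prod]
  simp only [setIntegral_const, smul_eq_mul, Measure.real, Measure.prod_prod, Real.volume_Icc,
    ENNReal.toReal_mul]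
  rw [ENNReal.toReal_ofReal (by linarith), ENNReal.toReal_ofReal (by linarith)]
  ring

/-- A function vanishing at the left end is bounded by the integral of its derivative. -/
lemma abs_le_integral_deriv {f f' : ℝ → ℝ} {w : ℝ} (hf : ∀ s ∈ Icc (-w) w, HasDerivAt f (f' s) s)
    (hc : ContinuousOn f' (Icc (-w) w)) (h0 : f (-w) = 0) {a : ℝ} (ha : a ∈ Icc (-w) w) :
    |f a| ≤ ∫ s in Icc (-w) w, |f' s| := by
  have hint : IntervalIntegrable f' volume (-w) a :=
    (hc.mono (Icc_subset_Icc le_rfl ha.2)).intervalIntegrable_of_Icc ha.1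
  have h1 := intervalIntegral.integral_eq_sub_of_hasDerivAt (f := f) (f' := f') (a := -w) (b := a)
    (fun s hs => hf s (by rw [uIcc_of_le ha.1] at hs; exact ⟨hs.1, hs.2.trans ha.2⟩)) hint
  rw [h0, sub_zero, intervalIntegral.integral_of_le ha.1] at h1
  rw [← h1]
  refine (abs_integral_le_integral_abs).trans ?_
  refine setIntegral_mono_set (hc.abs.integrableOn_compact isCompact_Icc)
    (Eventually.of_forall fun _ => abs_nonneg _) (Eventually.of_forall ?_)
  exact fun s hs => ⟨hs.1.le, hs.2.trans ha.2⟩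

/-- Planar Gagliardo-Nirenberg on a square. -/
lemma integral_sq_le_mul {w : ℝ} {u ua ub : ℝ × ℝ → ℝ}
    (hu : ContinuousOn u (sq w)) (hca : ContinuousOn ua (sq w)) (hcb : ContinuousOn ub (sq w))
    (hda : ∀ z ∈ sq w, HasDerivAt (fun s => u (s, z.2)) (ua z) z.1)
    (hdb : ∀ z ∈ sq w, HasDerivAt (fun s => u (z.1, s)) (ub z) z.2)
    (h0a : ∀ b ∈ Icc (-w) w, u (-w, b) = 0) (h0b : ∀ a ∈ Icc (-w) w, u (a, -w) = 0) :
    ∫ z in sq w, u z ^ 2 ≤ (∫ z in sq w, |ua z|) * ∫ z in sq w, |ub z| := by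
  set I := Icc (-w) w
  set A : ℝ → ℝ := fun b => ∫ s in I, |ua (s, b)| with hA
  set B : ℝ → ℝ := fun a => ∫ s in I, |ub (a, s)| with hB
  have hAi : IntegrableOn (fun z : ℝ × ℝ => |ua z|) (sq w) volume :=
    hca.abs.integrableOn_compact (isCompact_sq w)
  have hBi : IntegrableOn (fun z : ℝ × ℝ => |ub z|) (sq w) volume :=
    hcb.abs.integrableOn_compact (isCompact_sq w)
  rw [Measure.volume_eq_prod] at hAi hBi
  have eA : ∫ z in sq w, |ua z| = ∫ b in I, A b := by
    rw [Measure.volume_eq_prod, sq, ← setIntegral_prod_swap]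
    exact setIntegral_prod (fun q : ℝ × ℝ => |ua (q.2, q.1)|) hAi.swap
  have eB : ∫ z in sq w, |ub z| = ∫ a in I, B a := by
    rw [Measure.volume_eq_prod, sq]
    exact setIntegral_prod _ hBi
  have hAint : IntegrableOn A I := by
    have := hAi
    rw [IntegrableOn, sq, ← Measure.prod_restrict] at this
    exact this.integral_prod_right
  have hBint : IntegrableOn B I := by
    have := hBi
    rw [IntegrableOn, sq, ← Measure.prod_restrict] at this
    exact this.integral_prod_left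
  have key : ∀ z ∈ sq w, u z ^ 2 ≤ B z.1 * A z.2 := by
    intro z hz
    have h1 : |u z| ≤ A z.2 := abs_le_integral_deriv (f := fun s => u (s, z.2))
      (f' := fun s => ua (s, z.2)) (fun s hs => hda (s, z.2) ⟨hs, hz.2⟩)
      (hca.comp (by fun_prop) fun s hs => ⟨hs, hz.2⟩) (h0a _ hz.2) hz.1
    have h2 : |u z| ≤ B z.1 := abs_le_integral_deriv (f := fun s => u (z.1, s))
      (f' := fun s => ub (z.1, s)) (fun s hs => hdb (z.1, s) ⟨hz.1, hs⟩)
      (hcb.comp (by fun_prop) fun s hs => ⟨hz.1, hs⟩) (h0b _ hz.1) hz.2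
    calc u z ^ 2 = |u z| * |u z| := by rw [← sq_abs]; ring
      _ ≤ B z.1 * A z.2 := mul_le_mul h2 h1 (abs_nonneg _) ((abs_nonneg _).trans h2)
  have hprod : IntegrableOn (fun z : ℝ × ℝ => B z.1 * A z.2) (sq w) volume := by
    rw [Measure.volume_eq_prod, IntegrableOn, sq, ← Measure.prod_restrict]
    exact hBint.mul_prod hAint
  refine (setIntegral_mono_on ((hu.pow 2).integrableOn_compact (isCompact_sq w)) hprod
    (isCompact_sq w).measurableSet key).trans_eq ?_
  rw [eA, eB, mul_comm (∫ b in I, A b), Measure.volume_eq_prod, sq, setIntegral_prod_mul]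

end Vale.Agent.P080C1.Caccio
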