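import Vale.Agent.P080C1.Caccio.Coord

/-!
Anisotropic cut-off functions for a natural cylinder.
-/

noncomputable section

open MeasureTheory Set Filter Topology
open scoped ContDiff

namespace Vale.Agent.P080C1.Caccio

/-- Equal to `1` for `|s| ≤ 1/2` and to `0` for `|s| ≥ 13/25`. -/
def b1 (s : ℝ) : ℝ := Real.smoothTransition ((169 / 625 - s ^ 2) / (169 / 625 - 1 / 4))

/-- The cut-off in normalised coordinates. -/
def cut₁ (y : E3) : ℝ := b1 (y 0) * b1 (y 1) * b1 (y 2)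

/-- The scale of each coordinate. -/
def sc (ρ : ℝ) (i : Fin 3) : ℝ := if i = 2 then 1 else ρ

/-- The normalising linear map. -/
def lam (ρ : ℝ) : E3 →L[ℝ] E3 :=
  ∑ i : Fin 3, (sc ρ i)⁻¹ • (EuclideanSpace.proj i).smulRight (ee i)

/-- The cut-off of the cylinder of radius `ρ`. -/
def cut (ρ : ℝ) (y : E3) : ℝ := cut₁ (lam ρ y)

lemma lam_apply (ρ : ℝ) (y : E3) (j : Fin 3) : lam ρ y j = y j / sc ρ j := by
  simp [lam, ee, Finset.sum_apply, Pi.single_apply, mul_comm, div_eq_mul_inv]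

lemma lam_ee (ρ : ℝ) (i : Fin 3) : lam ρ (ee i) = (sc ρ i)⁻¹ • ee i := by
  ext j
  rw [lam_apply]
  by_cases h : j = i
  · subst h; simp [ee, div_eq_inv_mul]
  · simp [ee, h]

lemma sc_pos {ρ : ℝ} (hρ : 0 < ρ) (i : Fin 3) : 0 < sc ρ i := by
  unfold sc; split_ifs <;> linarith

lemma b1_nonneg (s : ℝ) : 0 ≤ b1 s := Real.smoothTransition.nonneg _
lemma b1_le_one (s : ℝ) : b1 s ≤ 1 := Real.smoothTransition.le_one _

lemma b1_one {s : ℝ} (h : |s| ≤ 1 / 2) : b1 s = 1 :=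
  Real.smoothTransition.one_of_one_le (by
    rw [le_div_iff₀ (by norm_num)]
    nlinarith [sq_abs s, abs_nonneg s])

lemma b1_zero {s : ℝ} (h : 13 / 25 ≤ |s|) : b1 s = 0 :=
  Real.smoothTransition.zero_of_nonpos
    (div_nonpos_of_nonpos_of_nonneg (by nlinarith [sq_abs s]) (by norm_num))

lemma contDiff_b1 : ContDiff ℝ ∞ b1 :=
  Real.smoothTransition.contDiff.comp (by fun_prop)

lemma contDiff_cut₁ : ContDiff ℝ ∞ cut₁ := by
  have h : ∀ i : Fin 3, ContDiff ℝ ∞ fun y : E3 => b1 (y i) :=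
    fun i => contDiff_b1.comp (EuclideanSpace.proj i : E3 →L[ℝ] ℝ).contDiff
  exact ((h 0).mul (h 1)).mul (h 2)

lemma cut₁_zero {y : E3} (h : y ∉ box (13 / 25) (13 / 25)) : cut₁ y = 0 := by
  simp only [box, mem_ofPred_eq, not_and_or, not_le] at h
  rcases h with h | h | h <;> simp [cut₁, b1_zero h.le]

lemma hasCompactSupport_cut₁ : HasCompactSupport cut₁ :=
  HasCompactSupport.intro (isCompact_box _ _) fun _ h => cut₁_zero h

lemma contDiff_cut (ρ : ℝ) : ContDiff ℝ ∞ (cut ρ) := contDiff_cut₁.comp (lam ρ).contDiff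

lemma cut_nonneg (ρ : ℝ) (y : E3) : 0 ≤ cut ρ y :=
  mul_nonneg (mul_nonneg (b1_nonneg _) (b1_nonneg _)) (b1_nonneg _)

lemma cut_le_one (ρ : ℝ) (y : E3) : cut ρ y ≤ 1 :=
  mul_le_one₀ (mul_le_one₀ (b1_le_one _) (b1_nonneg _) (b1_le_one _)) (b1_nonneg _) (b1_le_one _)

lemma cut_eq_one {ρ : ℝ} (hρ : 0 < ρ) {y : E3} (h : y ∈ box (1 / 2 * ρ) (1 / 2)) :
    cut ρ y = 1 := by
  obtain ⟨h0, h1, h2⟩ := h
  have e : ∀ i, i ≠ 2 → |y i| ≤ 1 / 2 * ρ → b1 (lam ρ y i) = 1 := fun i hi hy => b1_one (by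
    rw [lam_apply, sc, if_neg hi, abs_div, abs_of_pos hρ, div_le_iff₀ hρ]; exact hy)
  have e2 : b1 (lam ρ y 2) = 1 := by simpa [lam_apply, sc] using b1_one h2
  rw [cut, cut₁, e 0 (by decide) h0, e 1 (by decide) h1, e2, one_mul, one_mul]

lemma cut_eq_zero {ρ : ℝ} (hρ : 0 < ρ) {y : E3}
    (h : 13 / 25 * ρ ≤ |y 0| ∨ 13 / 25 * ρ ≤ |y 1| ∨ 13 / 25 ≤ |y 2|) : cut ρ y = 0 := by
  have e : ∀ i, i ≠ 2 → 13 / 25 * ρ ≤ |y i| → b1 (lam ρ y i) = 0 := fun i hi hy => b1_zero (by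
    rw [lam_apply, sc, if_neg hi, abs_div, abs_of_pos hρ, le_div_iff₀ hρ]; exact hy)
  rcases h with h | h | h
  · simp [cut, cut₁, e 0 (by decide) h]
  · simp [cut, cut₁, e 1 (by decide) h]
  · have e2 : b1 (lam ρ y 2) = 0 := by simpa [lam_apply, sc] using b1_zero h
    simp [cut, cut₁, e2]

lemma cut_eq_zero_of_notMem {ρ : ℝ} (hρ : 0 < ρ) {y : E3}
    (h : y ∉ box (13 / 25 * ρ) (13 / 25)) : cut ρ y = 0 := by
  apply cut_eq_zero hρ
  simp only [box, mem_ofPred_eq, not_and_or, not_le] at h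
  rcases h with h | h | h
  · exact .inl h.le
  · exact .inr (.inl h.le)
  · exact .inr (.inr h.le)

lemma pd_comp_lam (ρ : ℝ) {f : E3 → ℝ} {y : E3} (hf : DifferentiableAt ℝ f (lam ρ y)) (i : Fin 3) :
    pd i (fun z => f (lam ρ z)) y = (sc ρ i)⁻¹ * pd i f (lam ρ y) := by
  have h := hf.hasFDerivAt.comp y (lam ρ).hasFDerivAt
  rw [pd, show (fun z => f (lam ρ z)) = f ∘ lam ρ from rfl, h.fderiv]
  simp [pd, lam_ee]

/-- The derivatives of the cut-off are bounded by the scales. -/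
theorem exists_cut_bound : ∃ C : ℝ, 1 ≤ C ∧ ∀ ρ : ℝ, 0 < ρ → ∀ (y : E3) (i j : Fin 3),
    |pd i (cut ρ) y| ≤ C / sc ρ i ∧ |pd2 i j (cut ρ) y| ≤ C / (sc ρ i * sc ρ j) := by
  have hd : ∀ i, ContDiff ℝ ∞ (pd i cut₁) := fun i =>
    (contDiff_cut₁.fderiv_right (m := ∞) le_rfl).clm_apply contDiff_const
  have hs : ∀ i, HasCompactSupport (pd i cut₁) := fun i =>
    HasCompactSupport.fderiv_apply ℝ hasCompactSupport_cut₁ (ee i)
  have h1 : ∀ i, ∃ C, ∀ y, ‖pd i cut₁ y‖ ≤ C := fun i =>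
    (hs i).exists_bound_of_continuous (hd i).continuous
  have h2 : ∀ i j, ∃ C, ∀ y, ‖pd2 i j cut₁ y‖ ≤ C := fun i j =>
    (HasCompactSupport.fderiv_apply ℝ (hs j) (ee i)).exists_bound_of_continuous
      (((hd j).fderiv_right (m := ∞) le_rfl).clm_apply contDiff_const).continuous
  choose c1 hc1 using h1
  choose c2 hc2 using h2
  refine ⟨1 + ∑ i, |c1 i| + ∑ i, ∑ j, |c2 i j|, ?_, fun ρ hρ y i j => ?_⟩
  · have a : 0 ≤ ∑ i, |c1 i| := Finset.sum_nonneg fun _ _ => abs_nonneg _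
    have b : 0 ≤ ∑ i, ∑ j, |c2 i j| :=
      Finset.sum_nonneg fun _ _ => Finset.sum_nonneg fun _ _ => abs_nonneg _
    linarith
  set C := 1 + ∑ i, |c1 i| + ∑ i, ∑ j, |c2 i j|
  have a1 : c1 i ≤ C := by
    have u := Finset.single_le_sum (f := fun i => |c1 i|) (fun _ _ => abs_nonneg _)
      (Finset.mem_univ i)
    have b : 0 ≤ ∑ i, ∑ j, |c2 i j| :=
      Finset.sum_nonneg fun _ _ => Finset.sum_nonneg fun _ _ => abs_nonneg _
    simp only [C]; linarith [le_abs_self (c1 i)]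
  have a2 : c2 i j ≤ C := by
    have u := Finset.single_le_sum (f := fun j => |c2 i j|) (fun _ _ => abs_nonneg _)
      (Finset.mem_univ j)
    have u' := Finset.single_le_sum (f := fun i => ∑ j, |c2 i j|)
      (fun _ _ => Finset.sum_nonneg fun _ _ => abs_nonneg _) (Finset.mem_univ i)
    have b : 0 ≤ ∑ i, |c1 i| := Finset.sum_nonneg fun _ _ => abs_nonneg _
    simp only [C]; linarith [le_abs_self (c2 i j)]
  have hi := sc_pos hρ i
  have hj := sc_pos hρ j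
  have e1 : ∀ k z, pd k (cut ρ) z = (sc ρ k)⁻¹ * pd k cut₁ (lam ρ z) := fun k z =>
    pd_comp_lam ρ ((contDiff_cut₁.differentiable (by simp)) _) k
  refine ⟨?_, ?_⟩
  · rw [e1, abs_mul, abs_inv, abs_of_pos hi, div_eq_inv_mul]
    exact mul_le_mul_of_nonneg_left ((hc1 i _).trans a1) (by positivity)
  · have e2 : pd2 i j (cut ρ) y = (sc ρ i)⁻¹ * ((sc ρ j)⁻¹ * pd2 i j cut₁ (lam ρ y)) := by
      rw [pd2, show pd j (cut ρ) = fun z => (fun w => (sc ρ j)⁻¹ * pd j cut₁ w) (lam ρ z) from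
        funext (e1 j), pd_comp_lam ρ (f := fun w => (sc ρ j)⁻¹ * pd j cut₁ w)
          ((((hd j).differentiable (by simp)) _).const_mul _) i, pd,
        fderiv_const_mul (((hd j).differentiable (by simp)) _)]
      rfl
    rw [e2, ← mul_assoc, ← mul_inv, abs_mul, abs_inv, abs_of_pos (by positivity), div_eq_inv_mul]
    exact mul_le_mul_of_nonneg_left ((hc2 i j _).trans a2) (by positivity)

end Vale.Agent.P080C1.Caccio
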