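import Vale.Agent.P080C1.Caccio.Mass

/-!
The energy is bounded by the error terms of the identity.
-/

noncomputable section

open MeasureTheory Set Filter Topology
open scoped ContDiff

namespace Vale.Agent.P080C1.Caccio

variable {O : Set E3} {v : E3 → ℝ} {κ ε ρ B Cq : ℝ}

/-- The cut-off to the eighth power. -/
def psi (ρ : ℝ) (y : E3) : ℝ := cut ρ y ^ 8

lemma contDiff_psi (ρ : ℝ) : ContDiff ℝ ∞ (psi ρ) := (contDiff_cut ρ).pow 8

lemma contDiff_pd_cut (ρ : ℝ) (i : Fin 3) : ContDiff ℝ ∞ (pd i (cut ρ)) :=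
  ((contDiff_cut ρ).fderiv_right (m := ∞) le_rfl).clm_apply contDiff_const

lemma pd_psi (ρ : ℝ) (i : Fin 3) (y : E3) :
    pd i (psi ρ) y = 8 * cut ρ y ^ 7 * pd i (cut ρ) y := by
  have h := ((contDiff_cut ρ).differentiable (by simp) y).hasFDerivAt.pow 8
  rw [pd, show psi ρ = fun z => cut ρ z ^ 8 from rfl, h.fderiv]
  simp [pd]

lemma pd2_psi (ρ : ℝ) (j i : Fin 3) (y : E3) :
    pd2 j i (psi ρ) y = 56 * cut ρ y ^ 6 * (pd j (cut ρ) y * pd i (cut ρ) y) +
      8 * cut ρ y ^ 7 * pd2 j i (cut ρ) y := by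
  have hc : HasFDerivAt (fun z => 8 * cut ρ z ^ 7) _ y :=
    (((contDiff_cut ρ).differentiable (by simp) y).hasFDerivAt.pow 7).const_mul (8 : ℝ)
  have hd : HasFDerivAt (pd i (cut ρ)) _ y :=
    ((contDiff_pd_cut ρ i).differentiable (by simp) y).hasFDerivAt
  rw [pd2, show pd i (psi ρ) = fun z => (8 * cut ρ z ^ 7) * pd i (cut ρ) z from
    funext (pd_psi ρ i), pd, (hc.fun_mul hd).fderiv]
  simp [pd, pd2]
  ring

lemma psi_zero {y : E3} (hρ : 0 < ρ) (hy : y ∉ bx ρ) : psi ρ y = 0 := by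
  simp [psi, cut_eq_zero_of_notMem hρ hy]

lemma tsupport_psi (hρ : 0 < ρ) : tsupport (psi ρ) ⊆ bx ρ := by
  refine closure_minimal (fun y hy => ?_) (isCompact_bx ρ).isClosed
  by_contra h
  exact hy (psi_zero hρ h)

/-- The flux terms are absorbed. -/
lemma flux_bound {C0 : ℝ} (D : Datum O v κ ε ρ B Cq) (hC0 : 1 ≤ C0)
    (hcut : ∀ (y : E3) (i j : Fin 3), |pd i (cut ρ) y| ≤ C0 / sc ρ i ∧
      |pd2 i j (cut ρ) y| ≤ C0 / (sc ρ i * sc ρ j)) {y : E3} (hy : y ∈ bx ρ) :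
    |∑ i, ∑ j, pd2 j i (psi ρ) y * mflux v i j y| + |∑ i, pd i (psi ρ) y * kflux v i y| ≤
      1 / 2 * eX ρ v y + 1 / 2 * eT ρ κ v y + 10 ^ 11 * C0 ^ 2 * (cut ρ y ^ 6 * gnorm v y * eH ρ v y)
        + 10 ^ 11 * C0 ^ 2 * ε ^ 2 / ρ ^ 2 + 10 ^ 6 * C0 * B / ρ * eE κ v y := by
  have hρ := D.rho_pos
  have hκ := D.kappa_pos
  have hr := D.grad_pos y hy
  have hn := (D.nz_gt y hy).le
  have hη0 := cut_nonneg ρ y
  have hη1 := cut_le_one ρ y
  have h0 := one_sub_nonneg hr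
  have hH0 : 0 ≤ eH ρ v y := by unfold eH; positivity
  have hoe : ∀ i, 0 ≤ ord v i y / sc ρ i := fun i =>
    div_nonneg (ord_nonneg hr i) (sc_pos hρ i).le
  have hord : ∀ i, (ord v i y / sc ρ i) ^ 2 ≤ eH ρ v y := by
    intro i
    unfold ord sc eH
    split_ifs
    · rw [div_one, Real.sq_sqrt h0]; exact le_add_of_nonneg_right (by positivity)
    · rw [div_pow]; exact le_add_of_nonneg_left h0
  have hM : ∀ i j, |pd2 j i (psi ρ) y * mflux v i j y| ≤
      12800 * C0 ^ 2 * (cut ρ y ^ 6 * gnorm v y * eH ρ v y) := by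
    intro i j
    have hsi := sc_pos hρ i
    have hsj := sc_pos hρ j
    have h2 : |pd2 j i (psi ρ) y| ≤ 64 * C0 ^ 2 * cut ρ y ^ 6 / (sc ρ i * sc ρ j) := by
      rw [pd2_psi]
      refine (abs_add_le _ _).trans ?_
      have a1 : |56 * cut ρ y ^ 6 * (pd j (cut ρ) y * pd i (cut ρ) y)| ≤
          56 * C0 ^ 2 * cut ρ y ^ 6 / (sc ρ i * sc ρ j) := by
        rw [abs_mul, abs_of_nonneg (show (0 : ℝ) ≤ 56 * cut ρ y ^ 6 by positivity), abs_mul]
        calc 56 * cut ρ y ^ 6 * (|pd j (cut ρ) y| * |pd i (cut ρ) y|)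
            ≤ 56 * cut ρ y ^ 6 * (C0 / sc ρ j * (C0 / sc ρ i)) := by
              gcongr
              · exact (hcut y j j).1
              · exact (hcut y i i).1
          _ = _ := by ring
      have a2 : |8 * cut ρ y ^ 7 * pd2 j i (cut ρ) y| ≤
          8 * C0 ^ 2 * cut ρ y ^ 6 / (sc ρ i * sc ρ j) := by
        rw [abs_mul, abs_of_nonneg (show (0 : ℝ) ≤ 8 * cut ρ y ^ 7 by positivity)]
        calc 8 * cut ρ y ^ 7 * |pd2 j i (cut ρ) y|
            ≤ 8 * cut ρ y ^ 6 * (C0 ^ 2 / (sc ρ i * sc ρ j)) := by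
              refine mul_le_mul ?_ ?_ (abs_nonneg _) (by positivity)
              · exact mul_le_mul_of_nonneg_left (pow_le_pow_of_le_one hη0 hη1 (by norm_num))
                  (by norm_num)
              · refine (hcut y j i).2.trans ?_
                rw [mul_comm (sc ρ j)]
                exact div_le_div_of_nonneg_right (by nlinarith) (by positivity)
          _ = _ := by ring
      calc _ ≤ _ := add_le_add a1 a2
        _ = _ := by ring
    have hm := abs_mflux_le hr hn i j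
    have hp : ord v i y / sc ρ i * (ord v j y / sc ρ j) ≤ eH ρ v y := by
      nlinarith [hord i, hord j, sq_nonneg (ord v i y / sc ρ i - ord v j y / sc ρ j)]
    rw [abs_mul]
    calc |pd2 j i (psi ρ) y| * |mflux v i j y|
        ≤ 64 * C0 ^ 2 * cut ρ y ^ 6 / (sc ρ i * sc ρ j) *
            (200 * gnorm v y * (ord v i y * ord v j y)) :=
          mul_le_mul h2 hm (abs_nonneg _) (by positivity)
      _ = 12800 * C0 ^ 2 * cut ρ y ^ 6 * gnorm v y *
            (ord v i y / sc ρ i * (ord v j y / sc ρ j)) := by field_simp; ring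
      _ ≤ 12800 * C0 ^ 2 * cut ρ y ^ 6 * gnorm v y * eH ρ v y := by gcongr
      _ = _ := by ring
  have hMsum : |∑ i, ∑ j, pd2 j i (psi ρ) y * mflux v i j y| ≤
      9 * (12800 * C0 ^ 2 * (cut ρ y ^ 6 * gnorm v y * eH ρ v y)) := by
    refine (Finset.abs_sum_le_sum_abs _ _).trans ((Finset.sum_le_sum fun i _ =>
      ((Finset.abs_sum_le_sum_abs _ _).trans (Finset.sum_le_sum fun j _ => hM i j))).trans_eq ?_)
    simp only [Finset.sum_const, Finset.card_univ, Fintype.card_fin, nsmul_eq_mul]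
    ring
  set K := 32000 * C0 with hKdef
  have hK : 0 ≤ K := by positivity
  have hki : ∀ i, |pd i (psi ρ) y * kflux v i y| ≤
      K * cut ρ y ^ 7 * (√(eH ρ v y) * √(bsq v y)) + K * cut ρ y ^ 7 * |sig v y| / ρ := by
    intro i
    have hsi := sc_pos hρ i
    have h1 : |pd i (psi ρ) y| ≤ 8 * C0 * cut ρ y ^ 7 / sc ρ i := by
      rw [pd_psi, abs_mul, abs_of_nonneg (show (0 : ℝ) ≤ 8 * cut ρ y ^ 7 by positivity)]
      calc 8 * cut ρ y ^ 7 * |pd i (cut ρ) y| ≤ 8 * cut ρ y ^ 7 * (C0 / sc ρ i) := by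
            gcongr; exact (hcut y i i).1
        _ = _ := by ring
    have h2 : ord v i y / sc ρ i ≤ √(eH ρ v y) := Real.le_sqrt_of_sq_le (hord i)
    have h3 : |sig v y| / sc ρ i ≤ |sig v y| / ρ :=
      div_le_div_of_nonneg_left (abs_nonneg _) hρ
        (by unfold sc; split_ifs <;> linarith [D.rho_le])
    rw [abs_mul]
    calc |pd i (psi ρ) y| * |kflux v i y|
        ≤ 8 * C0 * cut ρ y ^ 7 / sc ρ i * (4000 * (ord v i y * √(bsq v y) + |sig v y|)) :=
          mul_le_mul h1 (abs_kflux_le hr hn i) (abs_nonneg _) (by positivity)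
      _ = K * cut ρ y ^ 7 * (ord v i y / sc ρ i * √(bsq v y)) +
            K * cut ρ y ^ 7 * (|sig v y| / sc ρ i) := by rw [hKdef]; field_simp; ring
      _ ≤ K * cut ρ y ^ 7 * (√(eH ρ v y) * √(bsq v y)) +
            K * cut ρ y ^ 7 * (|sig v y| / ρ) := by gcongr
      _ = _ := by ring
  have t1 : 3 * (K * cut ρ y ^ 7 * (√(eH ρ v y) * √(bsq v y))) ≤
      1 / 2 * eX ρ v y + 9 / 2 * K ^ 2 * (cut ρ y ^ 6 * gnorm v y * eH ρ v y) := by
    have key : 3 * (K * cut ρ y ^ 7 * (√(eH ρ v y) * √(bsq v y))) * gnorm v y ≤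
        (1 / 2 * eX ρ v y + 9 / 2 * K ^ 2 * (cut ρ y ^ 6 * gnorm v y * eH ρ v y)) * gnorm v y := by
      have e : eX ρ v y * gnorm v y = cut ρ y ^ 8 * bsq v y := by unfold eX; field_simp
      set a := cut ρ y ^ 4 * √(bsq v y) with ha
      set c := cut ρ y ^ 3 * gnorm v y * √(eH ρ v y) with hc
      have e1 : 3 * (K * cut ρ y ^ 7 * (√(eH ρ v y) * √(bsq v y))) * gnorm v y = 3 * K * a * c := by
        rw [ha, hc]; ring
      have e2 : (1 / 2 * eX ρ v y + 9 / 2 * K ^ 2 * (cut ρ y ^ 6 * gnorm v y * eH ρ v y)) *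
          gnorm v y = 1 / 2 * a ^ 2 + 9 / 2 * (K * c) ^ 2 := by
        rw [ha, hc]
        linear_combination (1 / 2 : ℝ) * e -
          1 / 2 * cut ρ y ^ 8 * Real.sq_sqrt (bsq_nonneg (v := v) (x := y)) -
          9 / 2 * K ^ 2 * cut ρ y ^ 6 * gnorm v y ^ 2 * Real.sq_sqrt hH0
      rw [e1, e2]
      nlinarith [sq_nonneg (a - 3 * K * c)]
    exact le_of_mul_le_mul_right key hr
  have hsig : |sig v y| ≤ theta κ v y * |strc v y| + |res' κ v y| := by
    rw [sig_eq hκ hr]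
    refine (abs_add_le _ _).trans ?_
    rw [abs_neg, abs_mul, abs_of_nonneg (theta_nonneg hκ)]
  have t2 : 3 * (K * cut ρ y ^ 7 * (theta κ v y * |strc v y|) / ρ) ≤
      1 / 2 * eT ρ κ v y + 9 / 2 * K ^ 2 * ε ^ 2 / ρ ^ 2 := by
    have hth := theta_nonneg (v := v) (x := y) hκ
    have h1 : 9 / 2 * K ^ 2 * (theta κ v y * gnorm v y) * cut ρ y ^ 6 / ρ ^ 2 ≤
        9 / 2 * K ^ 2 * ε ^ 2 / ρ ^ 2 := by
      refine div_le_div_of_nonneg_right ?_ (by positivity)
      calc 9 / 2 * K ^ 2 * (theta κ v y * gnorm v y) * cut ρ y ^ 6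
          ≤ 9 / 2 * K ^ 2 * (theta κ v y * gnorm v y) * 1 :=
            mul_le_mul_of_nonneg_left (pow_le_one₀ hη0 hη1) (by positivity)
        _ ≤ _ := by rw [mul_one]; gcongr; exact (theta_mul_le hκ).trans D.kappa_small
    refine le_trans ?_ (add_le_add_right h1 _)
    have key : 3 * (K * cut ρ y ^ 7 * (theta κ v y * |strc v y|) / ρ) * gnorm v y ≤
        (1 / 2 * eT ρ κ v y + 9 / 2 * K ^ 2 * (theta κ v y * gnorm v y) * cut ρ y ^ 6 / ρ ^ 2) *
          gnorm v y := by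
      have e : (1 / 2 * eT ρ κ v y +
          9 / 2 * K ^ 2 * (theta κ v y * gnorm v y) * cut ρ y ^ 6 / ρ ^ 2) * gnorm v y =
          theta κ v y * (1 / 2 * (cut ρ y ^ 4 * |strc v y|) ^ 2 +
            9 / 2 * (K * gnorm v y * cut ρ y ^ 3 / ρ) ^ 2) := by
        unfold eT; rw [← sq_abs (strc v y)]; field_simp
      have e' : 3 * (K * cut ρ y ^ 7 * (theta κ v y * |strc v y|) / ρ) * gnorm v y =
          theta κ v y * (3 * (cut ρ y ^ 4 * |strc v y|) * (K * gnorm v y * cut ρ y ^ 3 / ρ)) := by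
        ring
      rw [e, e']
      refine mul_le_mul_of_nonneg_left ?_ hth
      nlinarith [sq_nonneg (cut ρ y ^ 4 * |strc v y| - 3 * (K * gnorm v y * cut ρ y ^ 3 / ρ))]
    exact le_of_mul_le_mul_right key hr
  have t3 : 3 * (K * cut ρ y ^ 7 * |res' κ v y| / ρ) ≤ 3 * K * B / ρ * eE κ v y := by
    have h1 : cut ρ y ^ 7 * |res' κ v y| ≤ 1 * (B * eE κ v y) :=
      mul_le_mul (pow_le_one₀ hη0 hη1)
        ((res_bounds hκ hr).1.trans (mul_le_mul_of_nonneg_right (D.grad_le y hy) (eE_nonneg hκ)))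
        (abs_nonneg _) zero_le_one
    have h2 := mul_le_mul_of_nonneg_left h1 (show 0 ≤ 3 * K / ρ by positivity)
    linarith [show 3 * (K * cut ρ y ^ 7 * |res' κ v y| / ρ) =
      3 * K / ρ * (cut ρ y ^ 7 * |res' κ v y|) by ring,
      show 3 * K / ρ * (1 * (B * eE κ v y)) = 3 * K * B / ρ * eE κ v y by ring]
  have hKsum : |∑ i, pd i (psi ρ) y * kflux v i y| ≤
      3 * (K * cut ρ y ^ 7 * (√(eH ρ v y) * √(bsq v y))) +
        3 * (K * cut ρ y ^ 7 * |sig v y| / ρ) := by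
    refine (Finset.abs_sum_le_sum_abs _ _).trans ((Finset.sum_le_sum fun i _ => hki i).trans_eq ?_)
    simp only [Finset.sum_const, Finset.card_univ, Fintype.card_fin, nsmul_eq_mul]
    ring
  have t4 : 3 * (K * cut ρ y ^ 7 * |sig v y| / ρ) ≤
      3 * (K * cut ρ y ^ 7 * (theta κ v y * |strc v y|) / ρ) +
        3 * (K * cut ρ y ^ 7 * |res' κ v y| / ρ) := by
    rw [← mul_add, ← add_div, ← mul_add]; gcongr
  have hA : 0 ≤ cut ρ y ^ 6 * gnorm v y * eH ρ v y := by positivity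
  have n1 : 9 * (12800 * C0 ^ 2) + 9 / 2 * K ^ 2 ≤ 10 ^ 11 * C0 ^ 2 := by rw [hKdef]; nlinarith
  have n2 : 9 / 2 * K ^ 2 * ε ^ 2 / ρ ^ 2 ≤ 10 ^ 11 * C0 ^ 2 * ε ^ 2 / ρ ^ 2 := by
    rw [hKdef]
    have : 0 ≤ C0 ^ 2 * ε ^ 2 := by positivity
    exact div_le_div_of_nonneg_right (by nlinarith) (by positivity)
  have n3 : 3 * K * B / ρ * eE κ v y ≤ 10 ^ 6 * C0 * B / ρ * eE κ v y := by
    refine mul_le_mul_of_nonneg_right (div_le_div_of_nonneg_right ?_ hρ.le) (eE_nonneg hκ)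
    rw [hKdef]
    nlinarith [mul_nonneg (show (0 : ℝ) ≤ C0 by linarith) D.B_nonneg]
  have n4 := mul_le_mul_of_nonneg_right n1 hA
  linarith

/-- The energy inequality before absorption of the mass terms. -/
theorem Datum.energy (D : Datum O v κ ε ρ B Cq) (hid : IdentityProp) {C0 : ℝ} (hC0 : 1 ≤ C0)
    (hcut : ∀ (y : E3) (i j : Fin 3), |pd i (cut ρ) y| ≤ C0 / sc ρ i ∧
      |pd2 i j (cut ρ) y| ≤ C0 / (sc ρ i * sc ρ j)) :
    (∫ y in bx ρ, eX ρ v y) + (∫ y in bx ρ, eT ρ κ v y) ≤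
      2 * 10 ^ 11 * C0 ^ 2 * (∫ y in bx ρ, cut ρ y ^ 6 * gnorm v y * eH ρ v y) +
        5 * 10 ^ 11 * C0 ^ 2 * ε ^ 2 := by
  have hρ := D.rho_pos
  have hκ := D.kappa_pos
  have hz : ∀ y ∉ bx ρ, cut ρ y = 0 := fun y hy => cut_eq_zero_of_notMem hρ hy
  have hI := hid O v (psi ρ) D.isOpen (D.smooth.of_le (WithTop.coe_le_coe.2 le_top))
    ((contDiff_psi ρ).of_le (WithTop.coe_le_coe.2 le_top))
    (HasCompactSupport.intro (isCompact_bx ρ) fun y hy => psi_zero hρ hy)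
    ((tsupport_psi hρ).trans D.sub)
    (fun y hy => ⟨D.grad_pos y (tsupport_psi hρ hy), D.nz_gt y (tsupport_psi hρ hy)⟩)
  have r1 : ∫ y in bx ρ, psi ρ y * ((bsq v y - sig v y * strc v y) / gnorm v y) =
      ∫ y, psi ρ y * ((bsq v y - sig v y * strc v y) / gnorm v y) :=
    setIntegral_eq_integral_of_forall_compl_eq_zero fun y hy => by simp [psi_zero hρ hy]
  have r2 : ∫ y in bx ρ, (∑ i, ∑ j, pd2 j i (psi ρ) y * mflux v i j y) =
      ∫ y, (∑ i, ∑ j, pd2 j i (psi ρ) y * mflux v i j y) :=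
    setIntegral_eq_integral_of_forall_compl_eq_zero fun y hy => by simp [pd2_psi, hz y hy]
  have r3 : ∫ y in bx ρ, (∑ i, pd i (psi ρ) y * kflux v i y) =
      ∫ y, (∑ i, pd i (psi ρ) y * kflux v i y) :=
    setIntegral_eq_integral_of_forall_compl_eq_zero fun y hy => by simp [pd_psi, hz y hy]
  rw [← r1, ← r2, ← r3] at hI
  have cψ : Continuous (psi ρ) := (contDiff_psi ρ).continuous
  have cψ1 : ∀ i, Continuous (pd i (psi ρ)) := fun i =>
    (((contDiff_psi ρ).fderiv_right (m := ∞) le_rfl).clm_apply contDiff_const).continuous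
  have cψ2 : ∀ i j, Continuous (pd2 i j (psi ρ)) := fun i j =>
    (((((contDiff_psi ρ).fderiv_right (m := ∞) le_rfl).clm_apply
      contDiff_const).fderiv_right (m := ∞) le_rfl).clm_apply contDiff_const).continuous
  have cn : ∀ y ∈ bx ρ, 1 + nv v 2 y ≠ 0 := fun y hy => by linarith [D.nz_gt y hy]
  have cfq : ContinuousOn (fun y => fq (nv v 2 y)) (bx ρ) :=
    (continuousOn_const.sub (D.cont_nv 2)).div (continuousOn_const.add (D.cont_nv 2)) cn
  have cFq : ContinuousOn (fun y => Fq (nv v 2 y)) (bx ρ) :=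
    (continuousOn_const.mul (((continuousOn_const.add (D.cont_nv 2)).div_const 2).log
      fun y hy => by have := D.nz_gt y hy; exact (show (0 : ℝ) < (1 + nv v 2 y) / 2 by linarith).ne')).sub
      ((D.cont_nv 2).sub continuousOn_const)
  have cM : ∀ i j, ContinuousOn (mflux v i j) (bx ρ) := by
    intro i j
    refine ((cfq.mul ((D.cont_nv i).add continuousOn_const)).mul (D.cont_pd j)).sub ?_
    split_ifs
    · exact D.cont_gnorm.mul cFq
    · exact continuousOn_const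
  have cK : ∀ i, ContinuousOn (kflux v i) (bx ρ) := by
    intro i
    have c1 := D.cont_nv 2
    have c2 := D.cont_nv i
    have c3 := D.cont_bv 2
    have c4 := D.cont_bv i
    have c5 := D.cont_sig
    refine ((((((continuousOn_const.div ((continuousOn_const.add c1).pow 2)
      fun y hy => pow_ne_zero 2 (cn y hy)).mul c3).mul (c2.add continuousOn_const)).sub
      (cfq.mul c4)).add (((cFq.sub (c1.mul cfq)).sub cfq).mul (c4.add (c5.mul c2)))).add ?_)
    exact (((continuousOn_const.mul c2).mul (c3.add (c5.mul c1))).sub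
      (continuousOn_const.mul c5)).div (continuousOn_const.add c1) cn
  set SM : E3 → ℝ := fun y => ∑ i, ∑ j, pd2 j i (psi ρ) y * mflux v i j y
  set SK : E3 → ℝ := fun y => ∑ i, pd i (psi ρ) y * kflux v i y
  have cSM : ContinuousOn SM (bx ρ) :=
    continuousOn_finsetSum _ fun i _ => continuousOn_finsetSum _ fun j _ =>
      (cψ2 j i).continuousOn.mul (cM i j)
  have cSK : ContinuousOn SK (bx ρ) :=
    continuousOn_finsetSum _ fun i _ => (cψ1 i).continuousOn.mul (cK i)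
  set A : E3 → ℝ := fun y => cut ρ y ^ 6 * gnorm v y * eH ρ v y
  have cA : ContinuousOn A (bx ρ) :=
    (((cont_cut ρ).pow 6).continuousOn.mul D.cont_gnorm).mul D.cont_eH
  set LHS : E3 → ℝ := fun y => psi ρ y * ((bsq v y - sig v y * strc v y) / gnorm v y)
  have cL : ContinuousOn LHS (bx ρ) :=
    cψ.continuousOn.mul ((D.cont_bsq.sub (D.cont_sig.mul D.cont_strc)).div D.cont_gnorm
      fun y hy => (D.grad_pos y hy).ne')
  set W : E3 → ℝ := fun y => LHS y + (SM y - SK y)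
  have hW : ∀ y ∈ bx ρ, 1 / 2 * eX ρ v y + 1 / 2 * eT ρ κ v y - 10 ^ 11 * C0 ^ 2 * A y -
      10 ^ 11 * C0 ^ 2 * ε ^ 2 / ρ ^ 2 - (10 ^ 6 * C0 * B / ρ + 3) * eE κ v y ≤ W y := by
    intro y hy
    have hr := D.grad_pos y hy
    have hf := flux_bound D hC0 hcut hy
    have h1 : eX ρ v y + eT ρ κ v y - 3 * eE κ v y ≤ LHS y := by
      have e : LHS y = eX ρ v y + eT ρ κ v y -
          cut ρ y ^ 8 * (res' κ v y * strc v y / gnorm v y) := by
        simp only [LHS, psi, eX, eT, sig_eq hκ hr]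
        field_simp
        ring
      rw [e]
      have h2 : cut ρ y ^ 8 * (res' κ v y * strc v y / gnorm v y) ≤ 1 * (3 * eE κ v y) := by
        refine (le_abs_self _).trans ?_
        rw [abs_mul, abs_of_nonneg (pow_nonneg (cut_nonneg ρ y) 8), abs_div, abs_mul,
          abs_of_pos hr]
        refine mul_le_mul (pow_le_one₀ (cut_nonneg ρ y) (cut_le_one ρ y)) ?_
          (by positivity) zero_le_one
        rw [div_le_iff₀ hr]
        calc |res' κ v y| * |strc v y| ≤ |res' κ v y| * (3 * √(hessSq v y)) :=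
              mul_le_mul_of_nonneg_left (abs_strc_le hr) (abs_nonneg _)
          _ ≤ 3 * (gnorm v y * eE κ v y) := by linarith [(res_bounds hκ hr).2]
          _ = _ := by ring
      linarith
    have h3 := neg_abs_le (SM y)
    have h4 := le_abs_self (SK y)
    simp only [W]
    linarith
  have hWi : ∫ y in bx ρ, W y = 0 := by
    have e1 : ∫ y in bx ρ, W y =
        (∫ y in bx ρ, LHS y) + ((∫ y in bx ρ, SM y) - ∫ y in bx ρ, SK y) := by
      rw [← integral_sub (cSM.integrableOn_compact (isCompact_bx ρ))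
        (cSK.integrableOn_compact (isCompact_bx ρ))]
      exact integral_add (cL.integrableOn_compact (isCompact_bx ρ))
        ((cSM.sub cSK).integrableOn_compact (isCompact_bx ρ))
    rw [e1]
    linarith
  have hk := isCompact_bx ρ
  have i1 := (continuousOn_const (c := (1 / 2 : ℝ))).fun_mul D.cont_eX
  have i2 := (continuousOn_const (c := (1 / 2 : ℝ))).fun_mul D.cont_eT
  have i3 := (continuousOn_const (c := 10 ^ 11 * C0 ^ 2)).fun_mul cA
  have i4 : ContinuousOn (fun _ : E3 => 10 ^ 11 * C0 ^ 2 * ε ^ 2 / ρ ^ 2) (bx ρ) :=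
    continuousOn_const
  have i5 := (continuousOn_const (c := 10 ^ 6 * C0 * B / ρ + 3)).fun_mul D.cont_eE
  have hmono := setIntegral_bx_mono ((((i1.fun_add i2).fun_sub i3).fun_sub i4).fun_sub i5)
    (cL.fun_add (cSM.fun_sub cSK)) hW
  rw [hWi, integral_sub ((((i1.fun_add i2).fun_sub i3).fun_sub i4).integrableOn_compact hk)
      (i5.integrableOn_compact hk),
    integral_sub (((i1.fun_add i2).fun_sub i3).integrableOn_compact hk) (i4.integrableOn_compact hk),
    integral_sub ((i1.fun_add i2).integrableOn_compact hk) (i3.integrableOn_compact hk),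
    integral_add (i1.integrableOn_compact hk) (i2.integrableOn_compact hk),
    integral_const_mul, integral_const_mul, integral_const_mul, integral_const_mul] at hmono
  have hv := setIntegral_bx_le_sq hρ.le
    (show 0 ≤ 10 ^ 11 * C0 ^ 2 * ε ^ 2 / ρ ^ 2 by positivity)
  have hv' : 2 * ρ ^ 2 * (10 ^ 11 * C0 ^ 2 * ε ^ 2 / ρ ^ 2) = 2 * 10 ^ 11 * C0 ^ 2 * ε ^ 2 := by
    field_simp
  have hEE : (10 ^ 6 * C0 * B / ρ + 3) * (∫ y in bx ρ, eE κ v y) ≤ 10 ^ 6 * C0 * ε ^ 2 := by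
    have h1 : 10 ^ 6 * C0 * B / ρ + 3 ≤ 10 ^ 6 * C0 * (B + 4) / ρ := by
      rw [div_add' _ _ _ hρ.ne']
      exact div_le_div_of_nonneg_right (by nlinarith [D.rho_le]) hρ.le
    calc (10 ^ 6 * C0 * B / ρ + 3) * (∫ y in bx ρ, eE κ v y)
        ≤ 10 ^ 6 * C0 * (B + 4) / ρ * (∫ y in bx ρ, eE κ v y) :=
          mul_le_mul_of_nonneg_right h1 (setIntegral_bx_nonneg fun y _ => eE_nonneg hκ)
      _ = 10 ^ 6 * C0 / ρ * ((∫ y in bx ρ, eE κ v y) * (B + 4)) := by ring
      _ ≤ 10 ^ 6 * C0 / ρ * (ε ^ 2 * ρ ^ 2) :=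
          mul_le_mul_of_nonneg_left D.err_small (by positivity)
      _ = 10 ^ 6 * C0 * (ε ^ 2 * ρ) := by field_simp
      _ ≤ 10 ^ 6 * C0 * (ε ^ 2 * 1) := by gcongr; exact D.rho_le
      _ = _ := by ring
  have hc2 : 10 ^ 6 * C0 * ε ^ 2 ≤ 10 ^ 6 * C0 ^ 2 * ε ^ 2 := by gcongr; nlinarith
  have hpos : 0 ≤ C0 ^ 2 * ε ^ 2 := by positivity
  have hAe : (∫ y in bx ρ, A y) = ∫ y in bx ρ, cut ρ y ^ 6 * gnorm v y * eH ρ v y := rfl
  linarith

end Vale.Agent.P080C1.Caccio
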