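import Vale.Agent.P080C1.Defs

/-!
The quantities in the energy identity of smooth functions with nonvanishing gradient, in the frame
of the third axis.
-/

noncomputable section

open MeasureTheory

namespace Vale.Agent.P080C1.Caccio

/-- The unit gradient. -/
def nv (v : E3 → ℝ) (i : Fin 3) (x : E3) : ℝ := pd i v x / gnorm v x

/-- The Hessian applied to the unit gradient. -/
def an (v : E3 → ℝ) (i : Fin 3) (x : E3) : ℝ := ∑ j, pd2 i j v x * nv v j x

/-- The normal second derivative. -/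
def sig (v : E3 → ℝ) (x : E3) : ℝ := ∑ i, an v i x * nv v i x

/-- The tangential part of `an`. -/
def bv (v : E3 → ℝ) (i : Fin 3) (x : E3) : ℝ := an v i x - sig v x * nv v i x

/-- Its squared norm. -/
def bsq (v : E3 → ℝ) (x : E3) : ℝ := ∑ i, bv v i x ^ 2

/-- The tangential trace of the Hessian. -/
def strc (v : E3 → ℝ) (x : E3) : ℝ := lap v x - sig v x

/-- `(1 - t) / (1 + t)` -/
def fq (t : ℝ) : ℝ := (1 - t) / (1 + t)

/-- The primitive of `fq` vanishing at `1`. -/
def Fq (t : ℝ) : ℝ := 2 * Real.log ((1 + t) / 2) - (t - 1)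

/-- Indicator of the third coordinate. -/
def dz (i : Fin 3) : ℝ := if i = 2 then 1 else 0

/-- The second-order part of the flux. -/
def mflux (v : E3 → ℝ) (i j : Fin 3) (x : E3) : ℝ :=
  fq (nv v 2 x) * (nv v i x + dz i) * pd j v x -
    if i = j then gnorm v x * Fq (nv v 2 x) else 0

/-- The first-order part of the flux. -/
def kflux (v : E3 → ℝ) (i : Fin 3) (x : E3) : ℝ :=
  2 / (1 + nv v 2 x) ^ 2 * bv v 2 x * (nv v i x + dz i) - fq (nv v 2 x) * bv v i x +
    (Fq (nv v 2 x) - nv v 2 x * fq (nv v 2 x) - fq (nv v 2 x)) *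
      (bv v i x + sig v x * nv v i x) +
    (2 * nv v i x * (bv v 2 x + sig v x * nv v 2 x) - 2 * dz i * sig v x) / (1 + nv v 2 x)

/-- The integrated identity
`div (div mflux + kflux) = (sig * strc - bsq) / |Dv|`. -/
def IdentityProp : Prop :=
  ∀ (O : Set E3) (v ψ : E3 → ℝ), IsOpen O → ContDiffOn ℝ 3 v O → ContDiff ℝ 2 ψ →
    HasCompactSupport ψ → tsupport ψ ⊆ O →
    (∀ x ∈ tsupport ψ, 0 < gnorm v x ∧ -(9 / 10) < nv v 2 x) →
    ∫ x, ψ x * ((bsq v x - sig v x * strc v x) / gnorm v x) =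
      -(∫ x, ∑ i, ∑ j, pd2 j i ψ x * mflux v i j x) + ∫ x, ∑ i, pd i ψ x * kflux v i x

end Vale.Agent.P080C1.Caccio
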