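import Vale.Agent.P080C1.Caccio.Point

/-!
The integrands of the energy estimate and their continuity.
-/

noncomputable section

open MeasureTheory Set Filter Topology
open scoped ContDiff

namespace Vale.Agent.P080C1.Caccio

/-- The half-width and half-height box supporting the cut-off. -/
def bx (ρ : ℝ) : Set E3 := box (13 / 25 * ρ) (13 / 25)

/-- The points of the box where the gradient bound fails. -/
def badSet (ρ c : ℝ) (v : E3 → ℝ) : Set E3 := {y | y ∈ bx ρ ∧ c < qfun v y}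

/-- The tangential energy density. -/
def eX (ρ : ℝ) (v : E3 → ℝ) (y : E3) : ℝ := cut ρ y ^ 8 * (bsq v y / gnorm v y)

/-- The normal energy density. -/
def eT (ρ κ : ℝ) (v : E3 → ℝ) (y : E3) : ℝ :=
  cut ρ y ^ 8 * (theta κ v y * strc v y ^ 2 / gnorm v y)

/-- The density controlling all residual terms. -/
def eE (κ : ℝ) (v : E3 → ℝ) (y : E3) : ℝ :=
  |resid κ v y| * (1 + √(hessSq v y)) / gnorm v y / κ

/-- The weighted square of the defect. -/
def eF (ρ ε : ℝ) (v : E3 → ℝ) (y : E3) : ℝ := cut ρ y ^ 6 * gg ε v y ^ 2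

/-- The order of the error terms. -/
def eH (ρ : ℝ) (v : E3 → ℝ) (y : E3) : ℝ := (1 - nv v 2 y) + (1 - nv v 2 y) ^ 2 / ρ ^ 2

/-- The hypotheses of the estimate for one approximant. -/
structure Datum (O : Set E3) (v : E3 → ℝ) (κ ε ρ B Cq : ℝ) : Prop where
  isOpen : IsOpen O
  smooth : ContDiffOn ℝ ∞ v O
  sub : bx ρ ⊆ O
  kappa_pos : 0 < κ
  eps_pos : 0 < ε
  eps_le : ε ≤ 1
  rho_pos : 0 < ρ
  rho_le : ρ ≤ 1
  eps_rho : ε ≤ ρ ^ 2
  grad_pos : ∀ y ∈ bx ρ, 0 < gnorm v y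
  grad_le : ∀ y ∈ bx ρ, gnorm v y ≤ B
  nz_gt : ∀ y ∈ bx ρ, -(9 / 10) < nv v 2 y
  cq_nonneg : 0 ≤ Cq
  cq_le : Cq * ε ≤ 1 / 4
  kappa_small : √κ ≤ ε ^ 2
  bad_small : volume.real (badSet ρ (Cq * ε) v) * (B + 4) ≤ ε ^ 2 * ρ ^ 2
  err_small : (∫ y in bx ρ, eE κ v y) * (B + 4) ≤ ε ^ 2 * ρ ^ 2
  flat : ∃ c : ℝ, ∀ y ∈ bx ρ, |v y - (c + y 2)| ≤ 2 * ε

variable {O : Set E3} {v : E3 → ℝ} {κ ε ρ B Cq : ℝ}

lemma zero_mem_bx (hρ : 0 < ρ) : (0 : E3) ∈ bx ρ := by
  simp only [bx, box, mem_ofPred_eq, PiLp.zero_apply, abs_zero]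
  exact ⟨by positivity, by positivity, by norm_num⟩

lemma Datum.B_nonneg (D : Datum O v κ ε ρ B Cq) : 0 ≤ B :=
  (Real.sqrt_nonneg _).trans (D.grad_le 0 (zero_mem_bx D.rho_pos))

lemma isCompact_bx (ρ : ℝ) : IsCompact (bx ρ) := isCompact_box _ _

lemma measurableSet_bx (ρ : ℝ) : MeasurableSet (bx ρ) := (isCompact_bx ρ).measurableSet

lemma Datum.contDiffAt (D : Datum O v κ ε ρ B Cq) {y : E3} (hy : y ∈ bx ρ) :
    ContDiffAt ℝ ∞ v y :=
  D.smooth.contDiffAt (D.isOpen.mem_nhds (D.sub hy))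

lemma Datum.cont_pd (D : Datum O v κ ε ρ B Cq) (i : Fin 3) : ContinuousOn (pd i v) (bx ρ) :=
  fun _ hy => (contDiffAt_pd (D.contDiffAt hy) i).continuousAt.continuousWithinAt

lemma Datum.cont_pd2 (D : Datum O v κ ε ρ B Cq) (i j : Fin 3) :
    ContinuousOn (pd2 i j v) (bx ρ) :=
  fun _ hy => (continuousAt_pd2 (D.contDiffAt hy) i j).continuousWithinAt

lemma Datum.cont_gnorm (D : Datum O v κ ε ρ B Cq) : ContinuousOn (gnorm v) (bx ρ) :=
  Real.continuous_sqrt.comp_continuousOn (continuousOn_finsetSum _ fun i _ => (D.cont_pd i).pow 2)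

lemma Datum.cont_nv (D : Datum O v κ ε ρ B Cq) (i : Fin 3) : ContinuousOn (nv v i) (bx ρ) :=
  (D.cont_pd i).div D.cont_gnorm fun y hy => (D.grad_pos y hy).ne'

lemma Datum.cont_an (D : Datum O v κ ε ρ B Cq) (i : Fin 3) : ContinuousOn (an v i) (bx ρ) :=
  continuousOn_finsetSum _ fun j _ => (D.cont_pd2 i j).mul (D.cont_nv j)

lemma Datum.cont_sig (D : Datum O v κ ε ρ B Cq) : ContinuousOn (sig v) (bx ρ) :=
  continuousOn_finsetSum _ fun i _ => (D.cont_an i).mul (D.cont_nv i)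

lemma Datum.cont_bv (D : Datum O v κ ε ρ B Cq) (i : Fin 3) : ContinuousOn (bv v i) (bx ρ) :=
  (D.cont_an i).sub (D.cont_sig.mul (D.cont_nv i))

lemma Datum.cont_bsq (D : Datum O v κ ε ρ B Cq) : ContinuousOn (bsq v) (bx ρ) :=
  continuousOn_finsetSum _ fun i _ => (D.cont_bv i).pow 2

lemma Datum.cont_strc (D : Datum O v κ ε ρ B Cq) : ContinuousOn (strc v) (bx ρ) :=
  (continuousOn_finsetSum _ fun i _ => D.cont_pd2 i i).sub D.cont_sig

lemma Datum.cont_resid (D : Datum O v κ ε ρ B Cq) : ContinuousOn (resid κ v) (bx ρ) :=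
  (continuousOn_finsetSum _ fun i _ => continuousOn_finsetSum _ fun j _ =>
    ((D.cont_pd i).mul (D.cont_pd j)).mul (D.cont_pd2 i j)).add
    (continuousOn_const.mul (continuousOn_finsetSum _ fun i _ => D.cont_pd2 i i))

lemma Datum.cont_hessSq (D : Datum O v κ ε ρ B Cq) : ContinuousOn (hessSq v) (bx ρ) :=
  continuousOn_finsetSum _ fun i _ => continuousOn_finsetSum _ fun j _ => (D.cont_pd2 i j).pow 2

lemma Datum.cont_theta (D : Datum O v κ ε ρ B Cq) : ContinuousOn (theta κ v) (bx ρ) :=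
  continuousOn_const.div ((D.cont_gnorm.pow 2).add continuousOn_const) fun y _ => by
    have := D.kappa_pos
    positivity

lemma Datum.cont_gg (D : Datum O v κ ε ρ B Cq) : ContinuousOn (gg ε v) (bx ρ) := fun y hy =>
  (hasFDerivAt_gg D.eps_pos (D.contDiffAt hy) (D.grad_pos y hy)).continuousAt.continuousWithinAt

lemma cont_cut (ρ : ℝ) : Continuous (cut ρ) := (contDiff_cut ρ).continuous

lemma cont_pd_cut (ρ : ℝ) (i : Fin 3) : Continuous (pd i (cut ρ)) :=
  (((contDiff_cut ρ).fderiv_right (m := ∞) le_rfl).clm_apply contDiff_const).continuous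

lemma Datum.cont_eX (D : Datum O v κ ε ρ B Cq) : ContinuousOn (eX ρ v) (bx ρ) :=
  ((cont_cut ρ).pow 8).continuousOn.mul
    (D.cont_bsq.div D.cont_gnorm fun y hy => (D.grad_pos y hy).ne')

lemma Datum.cont_eT (D : Datum O v κ ε ρ B Cq) : ContinuousOn (eT ρ κ v) (bx ρ) :=
  ((cont_cut ρ).pow 8).continuousOn.mul
    ((D.cont_theta.mul (D.cont_strc.pow 2)).div D.cont_gnorm fun y hy => (D.grad_pos y hy).ne')

lemma Datum.cont_eE (D : Datum O v κ ε ρ B Cq) : ContinuousOn (eE κ v) (bx ρ) :=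
  ((D.cont_resid.abs.mul (continuousOn_const.add
    (Real.continuous_sqrt.comp_continuousOn D.cont_hessSq))).div D.cont_gnorm
      fun y hy => (D.grad_pos y hy).ne').div_const κ

lemma Datum.cont_eF (D : Datum O v κ ε ρ B Cq) : ContinuousOn (eF ρ ε v) (bx ρ) :=
  ((cont_cut ρ).pow 6).continuousOn.mul (D.cont_gg.pow 2)

lemma Datum.cont_h (D : Datum O v κ ε ρ B Cq) :
    ContinuousOn (fun y => 1 - nv v 2 y) (bx ρ) :=
  continuousOn_const.sub (D.cont_nv 2)

lemma Datum.cont_eH (D : Datum O v κ ε ρ B Cq) : ContinuousOn (eH ρ v) (bx ρ) :=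
  D.cont_h.add ((D.cont_h.pow 2).div_const _)

lemma eX_nonneg {y : E3} : 0 ≤ eX ρ v y :=
  mul_nonneg (pow_nonneg (cut_nonneg ρ y) 8) (div_nonneg bsq_nonneg (Real.sqrt_nonneg _))

lemma eT_nonneg (hκ : 0 < κ) {y : E3} : 0 ≤ eT ρ κ v y :=
  mul_nonneg (pow_nonneg (cut_nonneg ρ y) 8)
    (div_nonneg (mul_nonneg (theta_nonneg hκ) (sq_nonneg _)) (Real.sqrt_nonneg _))

lemma eE_nonneg (hκ : 0 < κ) {y : E3} : 0 ≤ eE κ v y := by
  unfold eE gnorm
  positivity

/-- The residual terms are bounded by `eE`. -/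
lemma res_bounds (hκ : 0 < κ) {y : E3} (hr : 0 < gnorm v y) :
    |res' κ v y| ≤ gnorm v y * eE κ v y ∧
      |res' κ v y| * √(hessSq v y) ≤ gnorm v y * eE κ v y := by
  have h := abs_res'_le (v := v) (x := y) hκ
  have h0 := abs_nonneg (resid κ v y)
  have hH := Real.sqrt_nonneg (hessSq v y)
  have e : gnorm v y * eE κ v y = |resid κ v y| / κ * (1 + √(hessSq v y)) := by
    unfold eE; field_simp
  rw [e]
  constructor
  · exact h.trans (le_mul_of_one_le_right (by positivity) (by linarith))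
  · exact mul_le_mul h (by linarith) hH (by positivity)

lemma setIntegral_bx_const (hρ : 0 ≤ ρ) (c : ℝ) :
    ∫ _y in bx ρ, c = 2 * (13 / 25) * (2 * (13 / 25 * ρ)) ^ 2 * c :=
  setIntegral_box_const (by positivity) (by norm_num) c

lemma setIntegral_bx_le_sq (hρ : 0 ≤ ρ) {c : ℝ} (hc : 0 ≤ c) :
    ∫ _y in bx ρ, c ≤ 2 * ρ ^ 2 * c := by
  rw [setIntegral_bx_const hρ]
  nlinarith [mul_nonneg (sq_nonneg ρ) hc]

/-- Monotonicity on the box for continuous functions. -/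
lemma setIntegral_bx_mono {f g : E3 → ℝ} (hf : ContinuousOn f (bx ρ)) (hg : ContinuousOn g (bx ρ))
    (h : ∀ y ∈ bx ρ, f y ≤ g y) : ∫ y in bx ρ, f y ≤ ∫ y in bx ρ, g y :=
  setIntegral_mono_on (hf.integrableOn_compact (isCompact_bx ρ))
    (hg.integrableOn_compact (isCompact_bx ρ)) (measurableSet_bx ρ) h

lemma setIntegral_bx_nonneg {f : E3 → ℝ} (h : ∀ y ∈ bx ρ, 0 ≤ f y) : 0 ≤ ∫ y in bx ρ, f y :=
  setIntegral_nonneg (measurableSet_bx ρ) h

lemma Datum.cont_qfun (D : Datum O v κ ε ρ B Cq) : ContinuousOn (qfun v) (bx ρ) := by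
  have h : ContinuousOn
      (fun y => 7 / 8 * gnorm v y ^ 2 - pd 2 v y + pd 2 v y ^ 2 / 8) (bx ρ) :=
    ((continuousOn_const.mul (D.cont_gnorm.pow 2)).sub (D.cont_pd 2)).add
      (((D.cont_pd 2).pow 2).div_const 8)
  exact h.congr fun y _ => qfun_eq v y

lemma Datum.measurableSet_bad (D : Datum O v κ ε ρ B Cq) (c : ℝ) :
    MeasurableSet (badSet ρ c v) := by
  have h := D.cont_qfun.preimage_isClosed_of_isClosed (isCompact_bx ρ).isClosed
    (isClosed_Iic (a := c))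
  have e : badSet ρ c v = bx ρ \ (bx ρ ∩ qfun v ⁻¹' Iic c) := by
    ext y; simp only [badSet, mem_ofPred_eq, Set.mem_sdiff, mem_inter_iff, mem_preimage, mem_Iic]
    constructor
    · rintro ⟨h1, h2⟩; exact ⟨h1, fun h3 => absurd h3.2 (not_le.2 h2)⟩
    · rintro ⟨h1, h2⟩; exact ⟨h1, not_le.1 fun h3 => h2 ⟨h1, h3⟩⟩
  rw [e]
  exact (measurableSet_bx ρ).diff h.measurableSet

/-- A bound which fails only on the bad set. -/
lemma Datum.setIntegral_split (D : Datum O v κ ε ρ B Cq) {f g : E3 → ℝ} {M : ℝ}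
    (hf : ContinuousOn f (bx ρ)) (hg : ContinuousOn g (bx ρ))
    (h1 : ∀ y ∈ bx ρ, qfun v y ≤ Cq * ε → f y ≤ g y)
    (h2 : ∀ y ∈ bx ρ, Cq * ε < qfun v y → f y ≤ g y + M) :
    ∫ y in bx ρ, f y ≤ (∫ y in bx ρ, g y) + M * volume.real (badSet ρ (Cq * ε) v) := by
  have hS := D.measurableSet_bad (Cq * ε)
  have hss : badSet ρ (Cq * ε) v ⊆ bx ρ := fun y hy => hy.1
  have hi := hg.integrableOn_compact (μ := volume) (isCompact_bx ρ)
  have hc : IntegrableOn (fun _ : E3 => M) (badSet ρ (Cq * ε) v) :=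
    (integrableOn_const (C := M) (isCompact_bx ρ).measure_lt_top.ne).mono_set hss
  have hI : IntegrableOn ((badSet ρ (Cq * ε) v).indicator fun _ => M) (bx ρ) :=
    ((integrable_indicator_iff hS).2 hc).integrableOn
  refine (setIntegral_mono_on (g := fun y => g y + (badSet ρ (Cq * ε) v).indicator (fun _ => M) y)
    (hf.integrableOn_compact (isCompact_bx ρ)) (hi.add hI) (measurableSet_bx ρ) fun y hy => ?_).trans
    (le_of_eq ?_)
  · rcases le_or_gt (qfun v y) (Cq * ε) with hq | hq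
    · rw [indicator_of_notMem (fun h => absurd h.2 (not_lt.2 hq)), add_zero]
      exact h1 y hy hq
    · rw [indicator_of_mem (show y ∈ badSet ρ (Cq * ε) v from ⟨hy, hq⟩)]
      exact h2 y hy hq
  · rw [integral_add hi hI, setIntegral_indicator hS, inter_eq_self_of_subset_right hss,
      setIntegral_const, smul_eq_mul, mul_comm]

end Vale.Agent.P080C1.Caccio
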