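import Vale.Agent.P080C1.Caccio.Integrand

/-!
Bounds on the mass of the defect from the line integrals of the axial derivative.
-/

noncomputable section

open MeasureTheory Set Filter Topology
open scoped ContDiff

namespace Vale.Agent.P080C1.Caccio

variable {O : Set E3} {v : E3 → ℝ} {κ ε ρ B Cq : ℝ}

lemma pt_mem_bx {t : ℝ} {z : ℝ × ℝ} :
    pt t z ∈ bx ρ ↔ t ∈ Icc (-(13 / 25 : ℝ)) (13 / 25) ∧ z ∈ sq (13 / 25 * ρ) :=
  mem_box_pt

lemma line_eq (t : ℝ) (z : ℝ × ℝ) : pt t z = pt 0 z + t • ee 2 := by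
  ext k; fin_cases k <;> simp [pt, ee]

lemma hasDerivAt_pt_axial {f : E3 → ℝ} {t : ℝ} {z : ℝ × ℝ}
    (hf : DifferentiableAt ℝ f (pt t z)) :
    HasDerivAt (fun s => f (pt s z)) (pd 2 f (pt t z)) t := by
  have h1 : HasDerivAt (fun s : ℝ => pt s z) (ee 2) t := by
    have h := ((hasDerivAt_id t).smul_const (ee 2)).const_add (pt 0 z)
    simpa [← line_eq] using h
  exact hf.hasFDerivAt.comp_hasDerivAt t h1

/-- The facts on the good set. -/
lemma Datum.good (D : Datum O v κ ε ρ B Cq) {y : E3} (hy : y ∈ bx ρ) (hq : qfun v y ≤ Cq * ε) :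
    gnorm v y ≤ 3 / 2 ∧ 1 - nv v 2 y ≤ 8 * (1 + Cq) * gg ε v y ∧
      gg ε v y ≤ 1 - pd 2 v y + (4 * Cq + 1) * ε := by
  rw [qfun_eq] at hq
  obtain ⟨h1, h2, h3⟩ := good_facts (D.grad_pos y hy) (abs_pd_le 2)
    (mul_nonneg D.cq_nonneg D.eps_pos.le) D.cq_le hq
  have hcap : capR (gnorm v y) = gnorm v y := capR_of_le h1
  have a1 := le_defect ε (gnorm v y)
  have a2 := eps_le_defect D.eps_pos.le (gnorm v y)
  have a3 := defect_le D.eps_pos.le (gnorm v y)
  rw [hcap] at a1 a3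
  refine ⟨h1, ?_, ?_⟩
  · calc 1 - nv v 2 y ≤ 8 * (|gnorm v y - 1| + Cq * ε) := h2
      _ ≤ 8 * (gg ε v y + Cq * gg ε v y) := by
          have := mul_le_mul_of_nonneg_left a2 D.cq_nonneg
          simp only [gg]; linarith
      _ = _ := by ring
  · calc gg ε v y ≤ |gnorm v y - 1| + ε := a3
      _ ≤ _ := by linarith

lemma Datum.gg_nonneg (D : Datum O v κ ε ρ B Cq) (y : E3) : 0 ≤ gg ε v y :=
  D.eps_pos.le.trans (eps_le_defect D.eps_pos.le _)

lemma Datum.gg_le_two (D : Datum O v κ ε ρ B Cq) (y : E3) : gg ε v y ≤ 2 := by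
  have h : |capR (gnorm v y) - 1| ≤ 1 := abs_capR_sub_one (Real.sqrt_nonneg _)
  have := defect_le D.eps_pos.le (gnorm v y)
  simp only [gg]
  linarith [D.eps_le]

lemma Datum.bad_le (D : Datum O v κ ε ρ B Cq) {M : ℝ} (hM : M ≤ B + 4) :
    M * volume.real (badSet ρ (Cq * ε) v) ≤ ε ^ 2 * ρ ^ 2 :=
  (mul_le_mul_of_nonneg_right hM measureReal_nonneg).trans (by linarith [D.bad_small])

lemma Datum.le_sq_eps (D : Datum O v κ ε ρ B Cq) : ε ^ 2 * ρ ^ 2 ≤ ρ ^ 2 * ε := by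
  have h : ε * ε ≤ 1 * ε := mul_le_mul_of_nonneg_right D.eps_le D.eps_pos.le
  nlinarith [sq_nonneg ρ]

/-- The total mass of the defect. -/
theorem Datum.mass (D : Datum O v κ ε ρ B Cq) :
    ∫ y in bx ρ, gg ε v y ≤ (20 + 10 * Cq) * (ρ ^ 2 * ε) := by
  have hρ := D.rho_pos
  have hε := D.eps_pos
  have hT : (-(13 / 25 : ℝ)) ≤ 13 / 25 := by norm_num
  have hw : (0 : ℝ) ≤ 13 / 25 * ρ := by positivity
  have hc1 : ContinuousOn (fun y => 1 - pd 2 v y) (bx ρ) := continuousOn_const.sub (D.cont_pd 2)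
  have h1 : ∫ y in bx ρ, gg ε v y ≤
      (∫ y in bx ρ, (1 - pd 2 v y + (4 * Cq + 1) * ε)) + ε ^ 2 * ρ ^ 2 := by
    refine (D.setIntegral_split D.cont_gg (hc1.add continuousOn_const)
      (fun y hy hq => (D.good hy hq).2.2) (M := B + 2) fun y hy _ => ?_).trans
      (add_le_add_right (D.bad_le (by linarith)) _)
    have := (abs_le.1 ((abs_pd_le 2).trans (D.grad_le y hy))).2
    have := D.gg_le_two y
    have : 0 ≤ (4 * Cq + 1) * ε := mul_nonneg (by linarith [D.cq_nonneg]) hε.le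
    simp only [Pi.add_apply]
    linarith
  have hsplit : ∫ y in bx ρ, (1 - pd 2 v y + (4 * Cq + 1) * ε) =
      (∫ y in bx ρ, (1 - pd 2 v y)) + ∫ _y in bx ρ, (4 * Cq + 1) * ε :=
    integral_add (hc1.integrableOn_compact (isCompact_bx ρ))
      (continuousOn_const.integrableOn_compact (isCompact_bx ρ))
  obtain ⟨c, hc⟩ := D.flat
  have hline : ∀ z ∈ sq (13 / 25 * ρ),
      ∫ t in Icc (-(13 / 25 : ℝ)) (13 / 25), (1 - pd 2 v (pt t z)) ≤ 4 * ε := by
    intro z hz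
    have hmem : ∀ t ∈ Icc (-(13 / 25 : ℝ)) (13 / 25), pt t z ∈ bx ρ := fun t ht =>
      pt_mem_bx.2 ⟨ht, hz⟩
    have hcont : ContinuousOn (fun t => 1 - pd 2 v (pt t z)) (Icc (-(13 / 25 : ℝ)) (13 / 25)) :=
      hc1.comp ((continuous_pt.comp (by fun_prop : Continuous fun t : ℝ => (t, z))).continuousOn)
        hmem
    rw [integral_Icc_eq_integral_Ioc, ← intervalIntegral.integral_of_le hT,
      intervalIntegral.integral_eq_sub_of_hasDerivAt (f := fun t => t - v (pt t z))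
        (fun t ht => ?_) (hcont.intervalIntegrable_of_Icc hT)]
    · obtain ⟨a1, a2⟩ := abs_le.1 (hc _ (hmem _ (right_mem_Icc.2 hT)))
      obtain ⟨b1, b2⟩ := abs_le.1 (hc _ (hmem _ (left_mem_Icc.2 hT)))
      simp only [pt_two] at a1 a2 b1 b2
      linarith
    · rw [uIcc_of_le hT] at ht
      exact (hasDerivAt_id t).sub
        (hasDerivAt_pt_axial ((D.contDiffAt (hmem t ht)).differentiableAt (by simp)))
  have hvol : volume.real (sq (13 / 25 * ρ)) ≤ 2 * ρ ^ 2 := by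
    rw [sq, Measure.volume_eq_prod, Measure.real, Measure.prod_prod, Real.volume_Icc,
      ENNReal.toReal_mul, ENNReal.toReal_ofReal (by linarith)]
    nlinarith [sq_nonneg ρ]
  have h2 : ∫ y in bx ρ, (1 - pd 2 v y) ≤ 8 * (ρ ^ 2 * ε) := by
    rw [bx, setIntegral_box' hc1]
    refine (setIntegral_mono_on ?_ (continuousOn_const.integrableOn_compact (isCompact_sq _))
      (isCompact_sq _).measurableSet hline).trans ?_
    · have hi := (continuousOn_pt_comp hc1).integrableOn_compact (μ := volume)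
        (isCompact_Icc.prod (isCompact_sq (13 / 25 * ρ)))
      rw [Measure.volume_eq_prod, IntegrableOn, ← Measure.prod_restrict] at hi
      exact hi.integral_prod_right
    · rw [setIntegral_const, smul_eq_mul]
      nlinarith
  have h3 : ∫ _y in bx ρ, (4 * Cq + 1) * ε ≤ (8 * Cq + 2) * (ρ ^ 2 * ε) :=
    (setIntegral_bx_le_sq hρ.le (mul_nonneg (by linarith [D.cq_nonneg]) hε.le)).trans_eq (by ring)
  have h4 : ε ^ 2 * ρ ^ 2 ≤ ρ ^ 2 * ε := D.le_sq_eps
  have h5 : 0 ≤ Cq * (ρ ^ 2 * ε) := mul_nonneg D.cq_nonneg (by positivity)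
  rw [hsplit] at h1
  nlinarith

lemma Datum.h_le_two (D : Datum O v κ ε ρ B Cq) {y : E3} (hy : y ∈ bx ρ) :
    1 - nv v 2 y ≤ 2 := by
  linarith [(abs_le.1 (abs_nv_le (D.grad_pos y hy) 2)).1]

/-- The mass of the tilt. -/
theorem Datum.tilt (D : Datum O v κ ε ρ B Cq) :
    ∫ y in bx ρ, (1 - nv v 2 y) ≤ 8 * (1 + Cq) * (∫ y in bx ρ, gg ε v y) + ε ^ 2 * ρ ^ 2 := by
  refine ((D.setIntegral_split (M := 2) D.cont_h (continuousOn_const.fun_mul D.cont_gg)
    (fun y hy hq => (D.good hy hq).2.1) fun y hy _ => ?_).trans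
    (add_le_add_right (D.bad_le (by linarith [D.B_nonneg])) _)).trans_eq ?_
  · have := D.h_le_two hy
    have : 0 ≤ 8 * (1 + Cq) * gg ε v y :=
      mul_nonneg (by linarith [D.cq_nonneg]) (D.gg_nonneg y)
    linarith
  · rw [integral_const_mul]

/-- The weighted error terms. -/
theorem Datum.order (D : Datum O v κ ε ρ B Cq) :
    ∫ y in bx ρ, cut ρ y ^ 6 * gnorm v y * eH ρ v y ≤
      12 * (1 + Cq) * (∫ y in bx ρ, gg ε v y) + 96 * (1 + Cq) ^ 2 / ρ ^ 2 * (∫ y in bx ρ, eF ρ ε v y)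
        + 6 * ε ^ 2 := by
  have hρ := D.rho_pos
  set C := 8 * (1 + Cq) with hC
  have hC0 : 0 ≤ C := by have := D.cq_nonneg; positivity
  have hg : ContinuousOn
      (fun y => 3 / 2 * C * gg ε v y + 3 / 2 * C ^ 2 / ρ ^ 2 * eF ρ ε v y) (bx ρ) :=
    (continuousOn_const.mul D.cont_gg).add (continuousOn_const.mul D.cont_eF)
  have hf : ContinuousOn (fun y => cut ρ y ^ 6 * gnorm v y * eH ρ v y) (bx ρ) :=
    (((cont_cut ρ).pow 6).continuousOn.mul D.cont_gnorm).mul D.cont_eH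
  refine ((D.setIntegral_split (M := (B + 4) * (6 / ρ ^ 2)) hf hg (fun y hy hq => ?_)
    fun y hy _ => ?_).trans (add_le_add_right (?_ : _ ≤ 6 * ε ^ 2) _)).trans_eq ?_
  · obtain ⟨hr, hh, -⟩ := D.good hy hq
    have h0 := one_sub_nonneg (D.grad_pos y hy)
    have hc6 : cut ρ y ^ 6 ≤ 1 := pow_le_one₀ (cut_nonneg ρ y) (cut_le_one ρ y)
    have hc0 : 0 ≤ cut ρ y ^ 6 := pow_nonneg (cut_nonneg ρ y) 6
    have hsq : (1 - nv v 2 y) ^ 2 ≤ C ^ 2 * gg ε v y ^ 2 := by nlinarith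
    calc cut ρ y ^ 6 * gnorm v y * eH ρ v y
        ≤ cut ρ y ^ 6 * (3 / 2) * eH ρ v y := by
          refine mul_le_mul_of_nonneg_right (mul_le_mul_of_nonneg_left hr hc0) ?_
          unfold eH; positivity
      _ = 3 / 2 * (cut ρ y ^ 6 * (1 - nv v 2 y)) +
            3 / 2 / ρ ^ 2 * (cut ρ y ^ 6 * (1 - nv v 2 y) ^ 2) := by unfold eH; ring
      _ ≤ 3 / 2 * (1 * (C * gg ε v y)) +
            3 / 2 / ρ ^ 2 * (cut ρ y ^ 6 * (C ^ 2 * gg ε v y ^ 2)) := by gcongr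
      _ = _ := by unfold eF; ring
  · have h0 := one_sub_nonneg (D.grad_pos y hy)
    have h2 := D.h_le_two hy
    have hH : eH ρ v y ≤ 6 / ρ ^ 2 := by
      unfold eH
      rw [← sub_nonneg, show 6 / ρ ^ 2 - ((1 - nv v 2 y) + (1 - nv v 2 y) ^ 2 / ρ ^ 2) =
        (6 - (1 - nv v 2 y) * ρ ^ 2 - (1 - nv v 2 y) ^ 2) / ρ ^ 2 by field_simp; ring]
      refine div_nonneg ?_ (by positivity)
      have : ρ ^ 2 ≤ 1 := pow_le_one₀ hρ.le D.rho_le
      nlinarith
    have : 0 ≤ 3 / 2 * C * gg ε v y + 3 / 2 * C ^ 2 / ρ ^ 2 * eF ρ ε v y := by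
      have := D.gg_nonneg y
      have := pow_nonneg (cut_nonneg ρ y) 6
      unfold eF; positivity
    have hb : cut ρ y ^ 6 * gnorm v y * eH ρ v y ≤ (B + 4) * (6 / ρ ^ 2) := by
      refine mul_le_mul ?_ hH ?_ (by linarith [D.B_nonneg])
      · calc cut ρ y ^ 6 * gnorm v y ≤ 1 * gnorm v y := mul_le_mul_of_nonneg_right
              (pow_le_one₀ (cut_nonneg ρ y) (cut_le_one ρ y)) (D.grad_pos y hy).le
          _ ≤ B + 4 := by linarith [D.grad_le y hy]
      · unfold eH; positivity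
    linarith
  · calc (B + 4) * (6 / ρ ^ 2) * volume.real (badSet ρ (Cq * ε) v)
        = 6 / ρ ^ 2 * ((B + 4) * volume.real (badSet ρ (Cq * ε) v)) := by ring
      _ ≤ 6 / ρ ^ 2 * (ε ^ 2 * ρ ^ 2) :=
          mul_le_mul_of_nonneg_left (D.bad_le le_rfl) (by positivity)
      _ = 6 * ε ^ 2 := by field_simp
  · rw [integral_add ((continuousOn_const.fun_mul D.cont_gg).integrableOn_compact (isCompact_bx ρ))
        ((continuousOn_const.fun_mul D.cont_eF).integrableOn_compact (isCompact_bx ρ)),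
      integral_const_mul, integral_const_mul, hC]
    ring

end Vale.Agent.P080C1.Caccio
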