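import Vale.Agent.P080C1.Caccio.Cap
import Vale.Agent.P080C1.Caccio.Algebra
import Vale.Agent.P080C1.Caccio.Cutoff

/-!
Pointwise facts about the quantities of the energy identity.
-/

noncomputable section

open MeasureTheory Set Filter Topology
open scoped ContDiff RealInnerProductSpace

namespace Vale.Agent.P080C1.Caccio

variable {v : E3 → ℝ} {x : E3}

lemma gnorm_sq (v : E3 → ℝ) (x : E3) : gnorm v x ^ 2 = ∑ i, pd i v x ^ 2 :=
  Real.sq_sqrt (Finset.sum_nonneg fun _ _ => sq_nonneg _)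

lemma pd_eq_nv (hr : 0 < gnorm v x) (i : Fin 3) : pd i v x = gnorm v x * nv v i x := by
  rw [nv, mul_div_cancel₀ _ hr.ne']

lemma sum_nv_sq (hr : 0 < gnorm v x) : ∑ i, nv v i x ^ 2 = 1 := by
  simp only [nv, div_pow]
  rw [← Finset.sum_div, ← gnorm_sq, div_self (by positivity)]

lemma abs_pd_le (i : Fin 3) : |pd i v x| ≤ gnorm v x := by
  refine Real.abs_le_sqrt ?_
  exact Finset.single_le_sum (f := fun j => pd j v x ^ 2) (fun j _ => sq_nonneg _)
    (Finset.mem_univ i)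

lemma abs_nv_le (hr : 0 < gnorm v x) (i : Fin 3) : |nv v i x| ≤ 1 := by
  rw [nv, abs_div, abs_of_pos hr, div_le_one hr]; exact abs_pd_le i

lemma gradient_apply (v : E3 → ℝ) (x : E3) (i : Fin 3) : gradient v x i = pd i v x := by
  have h : ⟪gradient v x, ee i⟫ = fderiv ℝ v x (ee i) := inner_gradient_left
  rw [pd, ← h, ee, EuclideanSpace.inner_single_right]
  simp

lemma qfun_eq (v : E3 → ℝ) (x : E3) :
    qfun v x = 7 / 8 * gnorm v x ^ 2 - pd 2 v x + pd 2 v x ^ 2 / 8 := by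
  have e : ‖gradient v x‖ ^ 2 = gnorm v x ^ 2 := by
    rw [gnorm_sq, EuclideanSpace.norm_sq_eq]
    exact Finset.sum_congr rfl fun i _ => by rw [gradient_apply v x, Real.norm_eq_abs, sq_abs]
  rw [qfun, qval, e, gradient_apply v x]

lemma contDiffAt_pd (hv : ContDiffAt ℝ ∞ v x) (i : Fin 3) : ContDiffAt ℝ ∞ (pd i v) x :=
  (hv.fderiv_right (m := ∞) le_rfl).clm_apply contDiffAt_const

lemma continuousAt_pd2 (hv : ContDiffAt ℝ ∞ v x) (i j : Fin 3) : ContinuousAt (pd2 i j v) x :=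
  (contDiffAt_pd (contDiffAt_pd hv j) i).continuousAt

lemma hasFDerivAt_gnorm (hv : ContDiffAt ℝ ∞ v x) (hr : 0 < gnorm v x) :
    HasFDerivAt (gnorm v)
      ((1 / (2 * gnorm v x)) • ∑ j, (2 * pd j v x) • fderiv ℝ (pd j v) x) x := by
  have hd : ∀ j, HasFDerivAt (pd j v) (fderiv ℝ (pd j v) x) x := fun j =>
    ((contDiffAt_pd hv j).differentiableAt (by simp)).hasFDerivAt
  have hs : HasFDerivAt (fun y => ∑ j, pd j v y ^ 2)
      (∑ j, (2 * pd j v x) • fderiv ℝ (pd j v) x) x :=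
    HasFDerivAt.fun_sum fun j _ => by simpa [two_mul] using (hd j).pow 2
  exact hs.sqrt (by rw [← gnorm_sq]; positivity)

lemma pd_gnorm (hv : ContDiffAt ℝ ∞ v x) (hr : 0 < gnorm v x) (i : Fin 3) :
    pd i (gnorm v) x = an v i x := by
  rw [pd, (hasFDerivAt_gnorm hv hr).fderiv]
  simp only [smul_apply, sum_apply, smul_eq_mul, an, nv, pd2, pd, Finset.mul_sum]
  refine Finset.sum_congr rfl fun j _ => ?_
  field_simp

lemma sum_bv_nv (hr : 0 < gnorm v x) : ∑ i, bv v i x * nv v i x = 0 := by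
  have h : ∑ i, nv v i x ^ 2 = 1 := sum_nv_sq hr
  have e : ∀ i, bv v i x * nv v i x = an v i x * nv v i x - sig v x * nv v i x ^ 2 := fun i => by
    rw [bv]; ring
  simp only [e, Finset.sum_sub_distrib, ← Finset.mul_sum, h, mul_one]
  exact sub_self _

lemma sum_an_sq (hr : 0 < gnorm v x) : ∑ i, an v i x ^ 2 = bsq v x + sig v x ^ 2 := by
  have h : ∑ i, nv v i x ^ 2 = 1 := sum_nv_sq hr
  have e : ∀ i, an v i x ^ 2 =
      bv v i x ^ 2 + 2 * sig v x * (bv v i x * nv v i x) + sig v x ^ 2 * nv v i x ^ 2 := fun i => by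
    rw [bv]; ring
  simp only [e, Finset.sum_add_distrib, ← Finset.mul_sum, h, sum_bv_nv hr, bsq]
  ring

lemma dGnormSq_eq (hv : ContDiffAt ℝ ∞ v x) (hr : 0 < gnorm v x) :
    dGnormSq v x = bsq v x + sig v x ^ 2 := by
  rw [← sum_an_sq hr, dGnormSq]
  simp only [pd_gnorm hv hr]

lemma bsq_nonneg : 0 ≤ bsq v x := Finset.sum_nonneg fun _ _ => sq_nonneg _

lemma abs_bv_le (i : Fin 3) : |bv v i x| ≤ √(bsq v x) :=
  Real.abs_le_sqrt (Finset.single_le_sum (f := fun j => bv v j x ^ 2) (fun j _ => sq_nonneg _)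
    (Finset.mem_univ i))

lemma sig_sq_le (hr : 0 < gnorm v x) : sig v x ^ 2 ≤ hessSq v x := by
  have h1 : sig v x ^ 2 ≤ ∑ i, an v i x ^ 2 := by
    refine (Finset.sum_mul_sq_le_sq_mul_sq _ (fun i => an v i x) (fun i => nv v i x)).trans_eq ?_
    rw [sum_nv_sq hr, mul_one]
  refine h1.trans (Finset.sum_le_sum fun i _ => ?_)
  refine (Finset.sum_mul_sq_le_sq_mul_sq _ (fun j => pd2 i j v x) (fun j => nv v j x)).trans_eq ?_
  rw [sum_nv_sq hr, mul_one]

lemma hessSq_nonneg : 0 ≤ hessSq v x :=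
  Finset.sum_nonneg fun _ _ => Finset.sum_nonneg fun _ _ => sq_nonneg _

lemma abs_strc_le (hr : 0 < gnorm v x) : |strc v x| ≤ 3 * √(hessSq v x) := by
  have h1 := Real.abs_le_sqrt (sig_sq_le hr)
  have h2 : |lap v x| ≤ 2 * √(hessSq v x) := by
    have : lap v x ^ 2 ≤ 4 * hessSq v x := by
      simp only [lap, hessSq, Fin.sum_univ_three]
      nlinarith [sq_nonneg (pd2 0 0 v x - pd2 1 1 v x), sq_nonneg (pd2 0 0 v x - pd2 2 2 v x),
        sq_nonneg (pd2 1 1 v x - pd2 2 2 v x), sq_nonneg (pd2 0 1 v x), sq_nonneg (pd2 0 2 v x),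
        sq_nonneg (pd2 1 0 v x), sq_nonneg (pd2 1 2 v x), sq_nonneg (pd2 2 0 v x),
        sq_nonneg (pd2 2 1 v x)]
    refine abs_le_of_sq_le_sq ?_ (by positivity)
    rw [mul_pow, Real.sq_sqrt hessSq_nonneg]
    linarith
  calc |strc v x| ≤ |lap v x| + |sig v x| := abs_sub _ _
    _ ≤ _ := by linarith

/-- The weight `κ / (|p|² + κ)`. -/
def theta (κ : ℝ) (v : E3 → ℝ) (x : E3) : ℝ := κ / (gnorm v x ^ 2 + κ)

/-- The scaled residual. -/
def res' (κ : ℝ) (v : E3 → ℝ) (x : E3) : ℝ := resid κ v x / (gnorm v x ^ 2 + κ)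

lemma theta_nonneg {κ : ℝ} (hκ : 0 < κ) : 0 ≤ theta κ v x := by unfold theta; positivity

lemma theta_le_one {κ : ℝ} (hκ : 0 < κ) : theta κ v x ≤ 1 := by
  rw [theta, div_le_one (by positivity)]; linarith [sq_nonneg (gnorm v x)]

lemma theta_mul_le {κ : ℝ} (hκ : 0 < κ) : theta κ v x * gnorm v x ≤ √κ := by
  rw [theta, div_mul_eq_mul_div, div_le_iff₀ (by positivity)]
  nlinarith [Real.sq_sqrt hκ.le, Real.sqrt_nonneg κ, sq_nonneg (gnorm v x - √κ),
    Real.sqrt_nonneg (∑ i, pd i v x ^ 2)]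

lemma abs_res'_le {κ : ℝ} (hκ : 0 < κ) : |res' κ v x| ≤ |resid κ v x| / κ := by
  rw [res', abs_div, abs_of_pos (show 0 < gnorm v x ^ 2 + κ by positivity)]
  exact div_le_div_of_nonneg_left (abs_nonneg _) hκ (by linarith [sq_nonneg (gnorm v x)])

lemma sig_eq {κ : ℝ} (hκ : 0 < κ) (hr : 0 < gnorm v x) :
    sig v x = -(theta κ v x * strc v x) + res' κ v x := by
  have e : hessQ v x = gnorm v x ^ 2 * sig v x := by
    simp only [hessQ, sig, an, Finset.mul_sum, Finset.sum_mul]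
    refine Finset.sum_congr rfl fun i _ => Finset.sum_congr rfl fun j _ => ?_
    rw [pd_eq_nv hr i, pd_eq_nv hr j]
    ring
  have hne : gnorm v x ^ 2 + κ ≠ 0 := by positivity
  rw [theta, res', resid, e, strc]
  field_simp
  ring

lemma sig_sq_le' {κ : ℝ} (hκ : 0 < κ) (hr : 0 < gnorm v x) :
    sig v x ^ 2 ≤ theta κ v x * strc v x ^ 2 + 2 * (|res' κ v x| * √(hessSq v x)) := by
  have h1 := sig_eq hκ hr
  have h2 : sig v x * res' κ v x ≤ |res' κ v x| * √(hessSq v x) := by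
    refine (le_abs_self _).trans ?_
    rw [abs_mul, mul_comm]
    exact mul_le_mul_of_nonneg_left (Real.abs_le_sqrt (sig_sq_le hr)) (abs_nonneg _)
  have h3 : theta κ v x ^ 2 * strc v x ^ 2 ≤ theta κ v x * strc v x ^ 2 := by
    refine mul_le_mul_of_nonneg_right ?_ (sq_nonneg _)
    nlinarith [theta_nonneg (v := v) (x := x) hκ, theta_le_one (v := v) (x := x) hκ]
  have h4 : sig v x ^ 2 = -(sig v x * (theta κ v x * strc v x)) + sig v x * res' κ v x := by
    linear_combination sig v x * h1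
  nlinarith [sq_nonneg (sig v x + theta κ v x * strc v x)]

/-- The order of a component in the flux bounds. -/
def ord (v : E3 → ℝ) (i : Fin 3) (x : E3) : ℝ :=
  if i = 2 then √(1 - nv v 2 x) else 1 - nv v 2 x

lemma one_sub_nonneg (hr : 0 < gnorm v x) : 0 ≤ 1 - nv v 2 x := by
  linarith [(abs_le.1 (abs_nv_le hr 2)).2]

lemma ord_nonneg (hr : 0 < gnorm v x) (i : Fin 3) : 0 ≤ ord v i x := by
  unfold ord; split_ifs
  · exact Real.sqrt_nonneg _
  · exact one_sub_nonneg hr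

lemma abs_nv_transversal (hr : 0 < gnorm v x) {i : Fin 3} (hi : i ≠ 2) :
    |nv v i x| ≤ 2 * √(1 - nv v 2 x) := by
  have h := sum_nv_sq hr
  simp only [Fin.sum_univ_three] at h
  have h2 : nv v i x ^ 2 ≤ 4 * (1 - nv v 2 x) := by
    have := abs_le.1 (abs_nv_le hr 2)
    fin_cases i <;> simp at hi ⊢ <;> nlinarith [sq_nonneg (nv v 0 x), sq_nonneg (nv v 1 x)]
  refine abs_le_of_sq_le_sq ?_ (by positivity)
  rw [mul_pow, Real.sq_sqrt (one_sub_nonneg hr)]
  linarith

lemma abs_bv_two (hr : 0 < gnorm v x) :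
    |bv v 2 x| ≤ 2 * √(1 - nv v 2 x) * √(bsq v x) := by
  have h : bv v 2 x ^ 2 ≤ (1 - nv v 2 x ^ 2) * bsq v x :=
    tangent_third (N := fun i => nv v i x) (b := fun i => bv v i x) (sum_nv_sq hr) (sum_bv_nv hr)
  refine abs_le_of_sq_le_sq ?_ (by positivity)
  rw [mul_pow, mul_pow, Real.sq_sqrt (one_sub_nonneg hr), Real.sq_sqrt bsq_nonneg]
  nlinarith [mul_nonneg (one_sub_nonneg hr) (bsq_nonneg (v := v) (x := x)),
    (abs_le.1 (abs_nv_le hr 2)).2]

lemma abs_dir_le (hr : 0 < gnorm v x) (i : Fin 3) :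
    √(1 - nv v 2 x) * |nv v i x + dz i| ≤ 2 * ord v i x ∧
      √(1 - nv v 2 x) * |nv v i x| ≤ 2 * ord v i x := by
  have hs := Real.sqrt_nonneg (1 - nv v 2 x)
  have hh := Real.mul_self_sqrt (one_sub_nonneg hr)
  unfold ord dz
  by_cases hi : i = 2
  · subst hi
    rw [if_pos rfl, if_pos rfl]
    have h1 := abs_nv_le hr 2
    have h2 : |nv v 2 x + 1| ≤ 2 := (abs_add_le _ _).trans (by rw [abs_one]; linarith)
    constructor <;> nlinarith
  · rw [if_neg hi, if_neg hi, add_zero]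
    have h1 := mul_le_mul_of_nonneg_left (abs_nv_transversal hr hi) hs
    constructor <;> nlinarith

lemma ord_cases (hr : 0 < gnorm v x) (i : Fin 3) : 1 - nv v 2 x ≤ 2 * ord v i x := by
  have h0 := one_sub_nonneg hr
  unfold ord
  split_ifs with hi
  · have h1 : √(1 - nv v 2 x) ≤ 2 := by
      rw [Real.sqrt_le_left (by norm_num)]; linarith [(abs_le.1 (abs_nv_le hr 2)).1]
    nlinarith [Real.mul_self_sqrt h0, Real.sqrt_nonneg (1 - nv v 2 x)]
  · linarith

lemma abs_mflux_le (hr : 0 < gnorm v x) (hn : -(9 / 10) ≤ nv v 2 x) (i j : Fin 3) :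
    |mflux v i j x| ≤ 200 * gnorm v x * (ord v i x * ord v j x) := by
  have hn1 := (abs_le.1 (abs_nv_le hr 2)).2
  have h0 := one_sub_nonneg hr
  have hs := Real.mul_self_sqrt h0
  obtain ⟨hd, -⟩ := abs_dir_le hr i
  obtain ⟨-, hj⟩ := abs_dir_le hr j
  have hoi := ord_cases hr i
  have hoj := ord_cases hr j
  have o1 := ord_nonneg hr i
  have o2 := ord_nonneg hr j
  have hf := abs_fq_le hn hn1
  have hF := abs_Fq_le hn hn1
  have e1 : |fq (nv v 2 x) * (nv v i x + dz i) * pd j v x| ≤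
      80 * gnorm v x * (ord v i x * ord v j x) := by
    rw [pd_eq_nv hr j, abs_mul, abs_mul, abs_mul, abs_of_pos hr]
    calc |fq (nv v 2 x)| * |nv v i x + dz i| * (gnorm v x * |nv v j x|)
        ≤ 20 * (1 - nv v 2 x) * |nv v i x + dz i| * (gnorm v x * |nv v j x|) := by
          refine mul_le_mul_of_nonneg_right (mul_le_mul_of_nonneg_right hf (abs_nonneg _)) ?_
          positivity
      _ = 20 * gnorm v x * ((√(1 - nv v 2 x) * |nv v i x + dz i|) *
            (√(1 - nv v 2 x) * |nv v j x|)) := by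
          rw [show 20 * gnorm v x * ((√(1 - nv v 2 x) * |nv v i x + dz i|) *
            (√(1 - nv v 2 x) * |nv v j x|)) = 20 * (√(1 - nv v 2 x) * √(1 - nv v 2 x)) *
              |nv v i x + dz i| * (gnorm v x * |nv v j x|) by ring, hs]
      _ ≤ 20 * gnorm v x * ((2 * ord v i x) * (2 * ord v j x)) := by
          refine mul_le_mul_of_nonneg_left (mul_le_mul hd hj ?_ (by positivity)) (by positivity)
          positivity
      _ = _ := by ring
  have e2 : |if i = j then gnorm v x * Fq (nv v 2 x) else 0| ≤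
      80 * gnorm v x * (ord v i x * ord v j x) := by
    split_ifs
    · rw [abs_mul, abs_of_pos hr]
      have : (1 - nv v 2 x) ^ 2 ≤ 4 * (ord v i x * ord v j x) := by nlinarith
      nlinarith
    · simp only [abs_zero]; positivity
  calc |mflux v i j x| ≤ _ := abs_sub _ _
    _ ≤ 200 * gnorm v x * (ord v i x * ord v j x) := by
      nlinarith [mul_nonneg hr.le (mul_nonneg o1 o2)]

lemma abs_kflux_le (hr : 0 < gnorm v x) (hn : -(9 / 10) ≤ nv v 2 x) (i : Fin 3) :
    |kflux v i x| ≤ 4000 * (ord v i x * √(bsq v x) + |sig v x|) := by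
  have hn1 := (abs_le.1 (abs_nv_le hr 2)).2
  have h0 := one_sub_nonneg hr
  obtain ⟨hd, hN⟩ := abs_dir_le hr i
  have hoi := ord_cases hr i
  have o1 := ord_nonneg hr i
  have hb := Real.sqrt_nonneg (bsq v x)
  have hb2 := abs_bv_two hr
  have hbi := abs_bv_le (v := v) (x := x) i
  have hf := abs_fq_le hn hn1
  have hF := abs_Fq_le hn hn1
  have hNi := abs_nv_le hr i
  have hpos : (0 : ℝ) < 1 + nv v 2 x := by linarith
  set n := nv v 2 x
  set h := 1 - n with hh
  set B := √(bsq v x)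
  set O' := ord v i x
  set σ := sig v x
  have t1 : |2 / (1 + n) ^ 2 * bv v 2 x * (nv v i x + dz i)| ≤ 800 * (O' * B) := by
    have a : |2 / (1 + n) ^ 2| ≤ 200 := by
      rw [abs_of_nonneg (by positivity), div_le_iff₀ (by positivity)]; nlinarith
    rw [abs_mul, abs_mul]
    calc |2 / (1 + n) ^ 2| * |bv v 2 x| * |nv v i x + dz i|
        ≤ 200 * (2 * √h * B) * |nv v i x + dz i| := by gcongr
      _ = 400 * B * (√h * |nv v i x + dz i|) := by ring
      _ ≤ 400 * B * (2 * O') := by gcongr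
      _ = 800 * (O' * B) := by ring
  have t2 : |fq n * bv v i x| ≤ 40 * (O' * B) := by
    rw [abs_mul]
    calc |fq n| * |bv v i x| ≤ 20 * h * B := by gcongr
      _ ≤ 20 * (2 * O') * B := by gcongr
      _ = _ := by ring
  have hh2 : h ≤ 2 := by linarith
  have t3 : |(Fq n - n * fq n - fq n) * (bv v i x + σ * nv v i x)| ≤
      160 * (O' * B) + 160 * |σ| := by
    have a : |Fq n - n * fq n - fq n| ≤ 80 * h := by
      have : |n * fq n| ≤ 20 * h := by
        rw [abs_mul]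
        exact (mul_le_of_le_one_left (abs_nonneg _) (abs_nv_le hr 2)).trans hf
      calc |Fq n - n * fq n - fq n| ≤ |Fq n| + |n * fq n| + |fq n| :=
            (abs_sub _ _).trans (add_le_add_left (abs_sub _ _) _)
        _ ≤ _ := by nlinarith
    have b : |bv v i x + σ * nv v i x| ≤ B + |σ| := by
      refine (abs_add_le _ _).trans (add_le_add hbi ?_)
      rw [abs_mul]
      exact mul_le_of_le_one_right (abs_nonneg _) hNi
    rw [abs_mul]
    calc |Fq n - n * fq n - fq n| * |bv v i x + σ * nv v i x| ≤ 80 * h * (B + |σ|) := by gcongr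
      _ = 80 * h * B + 80 * h * |σ| := by ring
      _ ≤ 80 * (2 * O') * B + 80 * 2 * |σ| := by gcongr
      _ = _ := by ring
  have t4 : |(2 * nv v i x * (bv v 2 x + σ * n) - 2 * dz i * σ) / (1 + n)| ≤
      80 * (O' * B) + 40 * |σ| := by
    rw [abs_div, abs_of_pos hpos, div_le_iff₀ hpos]
    have a : |2 * nv v i x * (bv v 2 x + σ * n) - 2 * dz i * σ| ≤ 8 * (O' * B) + 4 * |σ| := by
      have a1 : |nv v i x * bv v 2 x| ≤ 4 * (O' * B) := by
        rw [abs_mul]
        calc |nv v i x| * |bv v 2 x| ≤ |nv v i x| * (2 * √h * B) := by gcongr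
          _ = 2 * B * (√h * |nv v i x|) := by ring
          _ ≤ 2 * B * (2 * O') := by gcongr
          _ = _ := by ring
      have a2 : |nv v i x * (σ * n)| ≤ |σ| := by
        rw [abs_mul, abs_mul]
        exact (mul_le_of_le_one_left (by positivity) hNi).trans
          (mul_le_of_le_one_right (abs_nonneg _) (abs_nv_le hr 2))
      have a3 : |dz i * σ| ≤ |σ| := by
        rw [abs_mul]
        refine mul_le_of_le_one_left (abs_nonneg _) ?_
        unfold dz; split_ifs <;> simp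
      rw [show 2 * nv v i x * (bv v 2 x + σ * n) - 2 * dz i * σ =
        2 * (nv v i x * bv v 2 x) + 2 * (nv v i x * (σ * n)) - 2 * (dz i * σ) by ring, abs_le]
      obtain ⟨u1, w1⟩ := abs_le.1 a1
      obtain ⟨u2, w2⟩ := abs_le.1 a2
      obtain ⟨u3, w3⟩ := abs_le.1 a3
      constructor <;> linarith
    have : (80 * (O' * B) + 40 * |σ|) * (1 / 10) ≤ (80 * (O' * B) + 40 * |σ|) * (1 + n) :=
      mul_le_mul_of_nonneg_left (by linarith) (by positivity)
    linarith
  have hOB : 0 ≤ O' * B := mul_nonneg o1 hb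
  have hσ := abs_nonneg σ
  obtain ⟨u1, w1⟩ := abs_le.1 t1
  obtain ⟨u2, w2⟩ := abs_le.1 t2
  obtain ⟨u3, w3⟩ := abs_le.1 t3
  obtain ⟨u4, w4⟩ := abs_le.1 t4
  rw [kflux, abs_le]
  constructor <;> linarith

/-- The regularised defect of the capped gradient norm. -/
def gg (ε : ℝ) (v : E3 → ℝ) (y : E3) : ℝ := defect ε (gnorm v y)

lemma abs_rnorm_sub_le (ε : ℝ) (v : E3 → ℝ) (y : E3) : |rnorm v y - 1| ≤ gg ε v y :=
  le_defect ε _

lemma hasFDerivAt_gg {ε : ℝ} (hε : 0 < ε) (hv : ContDiffAt ℝ ∞ v x) (hr : 0 < gnorm v x) :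
    HasFDerivAt (gg ε v) (defectD ε (gnorm v x) •
      ((1 / (2 * gnorm v x)) • ∑ j, (2 * pd j v x) • fderiv ℝ (pd j v) x)) x :=
  (hasDerivAt_defect hε _).comp_hasFDerivAt x (hasFDerivAt_gnorm hv hr)

lemma pd_gg {ε : ℝ} (hε : 0 < ε) (hv : ContDiffAt ℝ ∞ v x) (hr : 0 < gnorm v x) (i : Fin 3) :
    pd i (gg ε v) x = defectD ε (gnorm v x) * an v i x := by
  rw [pd, (hasFDerivAt_gg hε hv hr).fderiv, ← pd_gnorm hv hr, pd,
    (hasFDerivAt_gnorm hv hr).fderiv]
  rfl

end Vale.Agent.P080C1.Caccio
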