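import Vale.Agent.P080C1.Caccio.Energy

/-!
The slice masses of the cut-off defect and the planar interpolation.
-/

noncomputable section

open MeasureTheory Set Filter Topology
open scoped ContDiff

namespace Vale.Agent.P080C1.Caccio

variable {O : Set E3} {v : E3 → ℝ} {κ ε ρ B Cq : ℝ}

/-- The cut-off defect. -/
def w4 (ρ ε : ℝ) (v : E3 → ℝ) (y : E3) : ℝ := cut ρ y ^ 4 * gg ε v y

/-- The function of the planar inequality. -/
def u6 (ρ ε : ℝ) (v : E3 → ℝ) (y : E3) : ℝ := cut ρ y ^ 6 * (gg ε v y * √(gg ε v y))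

/-- The right-hand density of the planar inequality. -/
def qd (C0 ρ κ ε : ℝ) (v : E3 → ℝ) (y : E3) : ℝ :=
  18 * C0 ^ 2 / ρ ^ 2 * eF ρ ε v y + 3 * (eX ρ v y + eT ρ κ v y + 2 * eE κ v y)

/-- `A ≤ μ W + P / μ` for all `μ > 0` gives `A ^ 2 ≤ 4 W P`. -/
lemma sq_le_of_forall_mu {A W P : ℝ} (hA : 0 ≤ A) (hW : 0 < W) (hP : 0 ≤ P)
    (h : ∀ μ : ℝ, 0 < μ → A ≤ μ * W + P / μ) : A ^ 2 ≤ 4 * W * P := by
  rcases hA.eq_or_lt with rfl | hA'
  · rw [zero_pow two_ne_zero]; positivity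
  have h1 := h (A / (2 * W)) (by positivity)
  have e : A / (2 * W) * W + P / (A / (2 * W)) = A / 2 + 2 * W * P / A := by field_simp
  rw [e] at h1
  have h2 : A / 2 ≤ 2 * W * P / A := by linarith
  rw [le_div_iff₀ hA'] at h2
  nlinarith

lemma Datum.diff_gg (D : Datum O v κ ε ρ B Cq) {y : E3} (hy : y ∈ bx ρ) :
    DifferentiableAt ℝ (gg ε v) y :=
  (hasFDerivAt_gg D.eps_pos (D.contDiffAt hy) (D.grad_pos y hy)).differentiableAt

lemma Datum.pd_w4 (D : Datum O v κ ε ρ B Cq) {y : E3} (hy : y ∈ bx ρ) (i : Fin 3) :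
    pd i (w4 ρ ε v) y = 4 * cut ρ y ^ 3 * pd i (cut ρ) y * gg ε v y +
      cut ρ y ^ 4 * (defectD ε (gnorm v y) * an v i y) := by
  have h1 := (((contDiff_cut ρ).differentiable (by simp) y).hasFDerivAt.pow 4)
  have h2 := (D.diff_gg hy).hasFDerivAt
  rw [← pd_gg D.eps_pos (D.contDiffAt hy) (D.grad_pos y hy), pd,
    show w4 ρ ε v = fun z => cut ρ z ^ 4 * gg ε v z from rfl, (h1.fun_mul h2).fderiv]
  simp [pd]
  ring

lemma Datum.pd_u6 (D : Datum O v κ ε ρ B Cq) {y : E3} (hy : y ∈ bx ρ) (i : Fin 3) :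
    DifferentiableAt ℝ (u6 ρ ε v) y ∧
    pd i (u6 ρ ε v) y = 6 * cut ρ y ^ 5 * pd i (cut ρ) y * (gg ε v y * √(gg ε v y)) +
      3 / 2 * cut ρ y ^ 6 * (√(gg ε v y) * (defectD ε (gnorm v y) * an v i y)) := by
  have hg : 0 < gg ε v y := defect_pos D.eps_pos _
  have h1 := (((contDiff_cut ρ).differentiable (by simp) y).hasFDerivAt.pow 6)
  have h2 := (D.diff_gg hy).hasFDerivAt
  have h3 := h1.fun_mul (h2.fun_mul (h2.sqrt hg.ne'))
  refine ⟨h3.differentiableAt, ?_⟩
  rw [← pd_gg D.eps_pos (D.contDiffAt hy) (D.grad_pos y hy), pd,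
    show u6 ρ ε v = fun z => cut ρ z ^ 6 * (gg ε v z * √(gg ε v z)) from rfl, h3.fderiv]
  simp [pd]
  have hs : 0 < √(gg ε v y) := Real.sqrt_pos.2 hg
  field_simp
  linear_combination (-(cut ρ y ^ 6) * fderiv ℝ (gg ε v) y (ee i)) * Real.sq_sqrt hg.le

lemma Datum.cont_defectD (D : Datum O v κ ε ρ B Cq) :
    ContinuousOn (fun y => defectD ε (gnorm v y)) (bx ρ) :=
  (continuous_defectD D.eps_pos).comp_continuousOn D.cont_gnorm

lemma Datum.cont_pd_w4 (D : Datum O v κ ε ρ B Cq) (i : Fin 3) :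
    ContinuousOn (pd i (w4 ρ ε v)) (bx ρ) :=
  (((((continuous_const.mul ((cont_cut ρ).pow 3)).mul (cont_pd_cut ρ i)).continuousOn.mul
    D.cont_gg).add (((cont_cut ρ).pow 4).continuousOn.mul
      (D.cont_defectD.mul (D.cont_an i))))).congr fun _ hy => D.pd_w4 hy i

lemma Datum.cont_pd_u6 (D : Datum O v κ ε ρ B Cq) (i : Fin 3) :
    ContinuousOn (pd i (u6 ρ ε v)) (bx ρ) :=
  ((((continuous_const.mul ((cont_cut ρ).pow 5)).mul (cont_pd_cut ρ i)).continuousOn.mul
    (D.cont_gg.mul D.cont_gg.sqrt)).add ((continuous_const.mul ((cont_cut ρ).pow 6)).continuousOn.mul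
      (D.cont_gg.sqrt.mul (D.cont_defectD.mul (D.cont_an i))))).congr fun _ hy => (D.pd_u6 hy i).2

lemma Datum.cont_w4 (D : Datum O v κ ε ρ B Cq) : ContinuousOn (w4 ρ ε v) (bx ρ) :=
  ((cont_cut ρ).pow 4).continuousOn.mul D.cont_gg

lemma Datum.cont_u6 (D : Datum O v κ ε ρ B Cq) : ContinuousOn (u6 ρ ε v) (bx ρ) :=
  ((cont_cut ρ).pow 6).continuousOn.mul (D.cont_gg.mul D.cont_gg.sqrt)

lemma Datum.cont_qd (D : Datum O v κ ε ρ B Cq) (C0 : ℝ) : ContinuousOn (qd C0 ρ κ ε v) (bx ρ) :=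
  (continuousOn_const.mul D.cont_eF).add (continuousOn_const.mul
    ((D.cont_eX.add D.cont_eT).add (continuousOn_const.mul D.cont_eE)))

lemma Datum.w4_nonneg (D : Datum O v κ ε ρ B Cq) (y : E3) : 0 ≤ w4 ρ ε v y :=
  mul_nonneg (pow_nonneg (cut_nonneg ρ y) 4) (D.gg_nonneg y)

lemma cont_slice {f : E3 → ℝ} (hf : ContinuousOn f (bx ρ)) {t : ℝ}
    (ht : t ∈ Icc (-(13 / 25 : ℝ)) (13 / 25)) :
    ContinuousOn (fun z => f (pt t z)) (sq (13 / 25 * ρ)) :=
  hf.comp (continuous_pt.comp (by fun_prop : Continuous fun z : ℝ × ℝ => (t, z))).continuousOn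
    fun _ hz => pt_mem_bx.2 ⟨ht, hz⟩

lemma cont_line {f : E3 → ℝ} (hf : ContinuousOn f (bx ρ)) {z : ℝ × ℝ}
    (hz : z ∈ sq (13 / 25 * ρ)) :
    ContinuousOn (fun t => f (pt t z)) (Icc (-(13 / 25 : ℝ)) (13 / 25)) :=
  hf.comp (continuous_pt.comp (by fun_prop : Continuous fun t : ℝ => (t, z))).continuousOn
    fun _ ht => pt_mem_bx.2 ⟨ht, hz⟩

/-- Every slice mass is bounded by the axial variation. -/
theorem Datum.slice_mass (D : Datum O v κ ε ρ B Cq) {t : ℝ}
    (ht : t ∈ Icc (-(13 / 25 : ℝ)) (13 / 25)) :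
    ∫ z in sq (13 / 25 * ρ), w4 ρ ε v (pt t z) ≤ ∫ y in bx ρ, |pd 2 (w4 ρ ε v) y| := by
  have hc := (D.cont_pd_w4 2).abs
  rw [bx, setIntegral_box' hc]
  refine setIntegral_mono_on ((cont_slice D.cont_w4 ht).integrableOn_compact (isCompact_sq _)) ?_
    (isCompact_sq _).measurableSet fun z hz => ?_
  · have hi := (continuousOn_pt_comp hc).integrableOn_compact (μ := volume)
      (isCompact_Icc.prod (isCompact_sq (13 / 25 * ρ)))
    rw [Measure.volume_eq_prod, IntegrableOn, ← Measure.prod_restrict] at hi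
    exact hi.integral_prod_right
  · refine (le_abs_self _).trans (abs_le_integral_deriv (f := fun s => w4 ρ ε v (pt s z))
      (f' := fun s => pd 2 (w4 ρ ε v) (pt s z)) (fun s hs => hasDerivAt_pt_axial ?_)
      (cont_line (D.cont_pd_w4 2) hz) ?_ ht)
    · exact (((contDiff_cut ρ).differentiable (by simp) _).pow 4).mul
        (D.diff_gg (pt_mem_bx.2 ⟨hs, hz⟩))
    · simp [w4, cut_eq_zero D.rho_pos
        (Or.inr (Or.inr (by norm_num : (13 / 25 : ℝ) ≤ |pt (-(13 / 25)) z 2|)))]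

/-- The axial variation. -/
theorem Datum.axial (D : Datum O v κ ε ρ B Cq) {C0 : ℝ} (hC0 : 1 ≤ C0)
    (hcut : ∀ (y : E3) (i j : Fin 3), |pd i (cut ρ) y| ≤ C0 / sc ρ i ∧
      |pd2 i j (cut ρ) y| ≤ C0 / (sc ρ i * sc ρ j)) {l : ℝ} (hl : 0 < l) :
    ∫ y in bx ρ, |pd 2 (w4 ρ ε v) y| ≤ 4 * C0 * (∫ y in bx ρ, gg ε v y) +
      l * ((∫ y in bx ρ, eX ρ v y) + ∫ y in bx ρ, eT ρ κ v y) +
      (3 / l * (∫ y in bx ρ, (1 - nv v 2 y)) + ε ^ 2 * ρ ^ 2 / l + ε ^ 2 * ρ ^ 2) := by
  have hρ := D.rho_pos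
  have hκ := D.kappa_pos
  have hB := D.B_nonneg
  have hk := isCompact_bx ρ
  have hC0' : (0 : ℝ) ≤ C0 := by linarith
  have hpt : ∀ y ∈ bx ρ, |pd 2 (w4 ρ ε v) y| ≤ 4 * C0 * gg ε v y + l * eX ρ v y +
      l * eT ρ κ v y + 3 / l * (1 - nv v 2 y) + ε ^ 2 / (4 * l) + B * eE κ v y := by
    intro y hy
    have hr := D.grad_pos y hy
    have hη0 := cut_nonneg ρ y
    have hη1 := cut_le_one ρ y
    have hh := one_sub_nonneg hr
    have hth := theta_nonneg (v := v) (x := y) hκ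
    have h1 : |4 * cut ρ y ^ 3 * pd 2 (cut ρ) y * gg ε v y| ≤ 4 * C0 * gg ε v y := by
      rw [abs_mul, abs_mul, abs_of_nonneg (show (0 : ℝ) ≤ 4 * cut ρ y ^ 3 by positivity),
        abs_of_nonneg (D.gg_nonneg y)]
      refine mul_le_mul_of_nonneg_right ?_ (D.gg_nonneg y)
      calc 4 * cut ρ y ^ 3 * |pd 2 (cut ρ) y| ≤ 4 * 1 * (C0 / sc ρ 2) :=
            mul_le_mul (by linarith [pow_le_one₀ (n := 3) hη0 hη1]) (hcut y 2 2).1 (abs_nonneg _)
              (by norm_num)
        _ = _ := by simp [sc]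
    have h2 : |cut ρ y ^ 4 * (defectD ε (gnorm v y) * an v 2 y)| ≤ l * eX ρ v y +
        l * eT ρ κ v y + 3 / l * (1 - nv v 2 y) + ε ^ 2 / (4 * l) + B * eE κ v y := by
      have hd := abs_defectD_le D.eps_pos (gnorm v y)
      have hpos : 0 ≤ l * eX ρ v y + l * eT ρ κ v y + 3 / l * (1 - nv v 2 y) + ε ^ 2 / (4 * l) +
          B * eE κ v y := by
        have := eX_nonneg (ρ := ρ) (v := v) (y := y)
        have := eT_nonneg (ρ := ρ) (v := v) (y := y) hκ
        have := eE_nonneg (v := v) (y := y) hκ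
        positivity
      split_ifs at hd with hr5
      · rw [abs_mul, abs_mul, abs_of_nonneg (pow_nonneg hη0 4)]
        have han : |an v 2 y| ≤ 2 * √(1 - nv v 2 y) * √(bsq v y) + theta κ v y * |strc v y| +
            |res' κ v y| := by
          have e : an v 2 y = bv v 2 y + sig v y * nv v 2 y := by rw [bv]; ring
          have hsN : |sig v y * nv v 2 y| ≤ theta κ v y * |strc v y| + |res' κ v y| := by
            rw [abs_mul]
            refine (mul_le_of_le_one_right (abs_nonneg _) (abs_nv_le hr 2)).trans ?_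
            rw [sig_eq hκ hr]
            refine (abs_add_le _ _).trans ?_
            rw [abs_neg, abs_mul, abs_of_nonneg hth]
          rw [e]
          exact (abs_add_le _ _).trans (by linarith [abs_bv_two hr])
        have t1 : cut ρ y ^ 4 * (2 * √(1 - nv v 2 y) * √(bsq v y)) ≤
            l * eX ρ v y + 3 / l * (1 - nv v 2 y) := by
          have key : cut ρ y ^ 4 * (2 * √(1 - nv v 2 y) * √(bsq v y)) * (gnorm v y * l) ≤
              (l * eX ρ v y + 3 / l * (1 - nv v 2 y)) * (gnorm v y * l) := by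
            have e : (l * eX ρ v y + 3 / l * (1 - nv v 2 y)) * (gnorm v y * l) =
                (l * cut ρ y ^ 4 * √(bsq v y)) ^ 2 +
                  3 * gnorm v y * √(1 - nv v 2 y) ^ 2 := by
              rw [mul_pow, mul_pow, Real.sq_sqrt (bsq_nonneg (v := v) (x := y)), Real.sq_sqrt hh]
              unfold eX
              field_simp
            rw [e]
            have hrr : gnorm v y ^ 2 * √(1 - nv v 2 y) ^ 2 ≤
                3 * gnorm v y * √(1 - nv v 2 y) ^ 2 :=
              mul_le_mul_of_nonneg_right (by nlinarith) (sq_nonneg _)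
            nlinarith [sq_nonneg (l * cut ρ y ^ 4 * √(bsq v y) - gnorm v y * √(1 - nv v 2 y))]
          exact le_of_mul_le_mul_right key (mul_pos hr hl)
        have t2 : cut ρ y ^ 4 * (theta κ v y * |strc v y|) ≤ l * eT ρ κ v y + ε ^ 2 / (4 * l) := by
          have h' : theta κ v y * gnorm v y ≤ ε ^ 2 := (theta_mul_le hκ).trans D.kappa_small
          refine le_trans ?_ (add_le_add_right
            (div_le_div_of_nonneg_right h' (show (0 : ℝ) ≤ 4 * l by positivity)) _)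
          have key : cut ρ y ^ 4 * (theta κ v y * |strc v y|) * (gnorm v y * (4 * l)) ≤
              (l * eT ρ κ v y + theta κ v y * gnorm v y / (4 * l)) * (gnorm v y * (4 * l)) := by
            have e : (l * eT ρ κ v y + theta κ v y * gnorm v y / (4 * l)) * (gnorm v y * (4 * l)) =
                theta κ v y * ((2 * l * (cut ρ y ^ 4 * |strc v y|)) ^ 2 + gnorm v y ^ 2) := by
              unfold eT; rw [← sq_abs (strc v y)]; field_simp; ring
            rw [e, show cut ρ y ^ 4 * (theta κ v y * |strc v y|) * (gnorm v y * (4 * l)) =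
              theta κ v y * (2 * (2 * l * (cut ρ y ^ 4 * |strc v y|)) * gnorm v y) by ring]
            exact mul_le_mul_of_nonneg_left (two_mul_le_add_sq _ _) hth
          exact le_of_mul_le_mul_right key (by positivity)
        have t3 : cut ρ y ^ 4 * |res' κ v y| ≤ B * eE κ v y :=
          (mul_le_of_le_one_left (abs_nonneg _) (pow_le_one₀ hη0 hη1)).trans
            ((res_bounds hκ hr).1.trans
              (mul_le_mul_of_nonneg_right (D.grad_le y hy) (eE_nonneg hκ)))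
        calc cut ρ y ^ 4 * (|defectD ε (gnorm v y)| * |an v 2 y|)
            ≤ cut ρ y ^ 4 * (2 * √(1 - nv v 2 y) * √(bsq v y) + theta κ v y * |strc v y| +
                |res' κ v y|) :=
              mul_le_mul_of_nonneg_left ((mul_le_of_le_one_left (abs_nonneg _) hd).trans han)
                (pow_nonneg hη0 4)
          _ = cut ρ y ^ 4 * (2 * √(1 - nv v 2 y) * √(bsq v y)) +
                cut ρ y ^ 4 * (theta κ v y * |strc v y|) + cut ρ y ^ 4 * |res' κ v y| := by ring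
          _ ≤ _ := by linarith
      · rw [abs_nonpos_iff.1 hd]
        simpa using hpos
    rw [D.pd_w4 hy]
    exact (abs_add_le _ _).trans (by linarith)
  have i1 := (continuousOn_const (c := 4 * C0)).fun_mul D.cont_gg
  have i2 := (continuousOn_const (c := l)).fun_mul D.cont_eX
  have i3 := (continuousOn_const (c := l)).fun_mul D.cont_eT
  have i4 := (continuousOn_const (c := 3 / l)).fun_mul D.cont_h
  have i5 : ContinuousOn (fun _ : E3 => ε ^ 2 / (4 * l)) (bx ρ) := continuousOn_const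
  have i6 := (continuousOn_const (c := B)).fun_mul D.cont_eE
  have hm := setIntegral_bx_mono (D.cont_pd_w4 2).abs
    (((((i1.fun_add i2).fun_add i3).fun_add i4).fun_add i5).fun_add i6) hpt
  rw [integral_add ((((((i1.fun_add i2).fun_add i3).fun_add i4).fun_add i5)).integrableOn_compact hk)
      (i6.integrableOn_compact hk),
    integral_add (((((i1.fun_add i2).fun_add i3).fun_add i4)).integrableOn_compact hk)
      (i5.integrableOn_compact hk),
    integral_add ((((i1.fun_add i2).fun_add i3)).integrableOn_compact hk)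
      (i4.integrableOn_compact hk),
    integral_add ((i1.fun_add i2).integrableOn_compact hk) (i3.integrableOn_compact hk),
    integral_add (i1.integrableOn_compact hk) (i2.integrableOn_compact hk),
    integral_const_mul, integral_const_mul, integral_const_mul, integral_const_mul,
    integral_const_mul] at hm
  have hv := setIntegral_bx_le_sq hρ.le (show 0 ≤ ε ^ 2 / (4 * l) by positivity)
  have he : B * (∫ y in bx ρ, eE κ v y) ≤ ε ^ 2 * ρ ^ 2 :=
    le_trans (by nlinarith [setIntegral_bx_nonneg (ρ := ρ) fun y _ => eE_nonneg (v := v) (y := y) hκ])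
      D.err_small
  have hv' : 2 * ρ ^ 2 * (ε ^ 2 / (4 * l)) ≤ ε ^ 2 * ρ ^ 2 / l := by
    rw [← mul_div_assoc, div_le_div_iff₀ (by positivity) hl]
    nlinarith [mul_nonneg (mul_nonneg (sq_nonneg ρ) (sq_nonneg ε)) hl.le]
  linarith

lemma hasDerivAt_pt_first {f : E3 → ℝ} {t : ℝ} {z : ℝ × ℝ}
    (hf : DifferentiableAt ℝ f (pt t z)) :
    HasDerivAt (fun s => f (pt t (s, z.2))) (pd 0 f (pt t z)) z.1 := by
  have hline : ∀ s : ℝ, pt t (s, z.2) = pt t (0, z.2) + s • ee 0 := fun s => by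
    ext k; fin_cases k <;> simp [pt, ee]
  have h1 : HasDerivAt (fun s : ℝ => pt t (s, z.2)) (ee 0) z.1 := by
    have h := ((hasDerivAt_id z.1).smul_const (ee 0)).const_add (pt t (0, z.2))
    simpa [← hline] using h
  exact hf.hasFDerivAt.comp_hasDerivAt z.1 h1

lemma hasDerivAt_pt_second {f : E3 → ℝ} {t : ℝ} {z : ℝ × ℝ}
    (hf : DifferentiableAt ℝ f (pt t z)) :
    HasDerivAt (fun s => f (pt t (z.1, s))) (pd 1 f (pt t z)) z.2 := by
  have hline : ∀ s : ℝ, pt t (z.1, s) = pt t (z.1, 0) + s • ee 1 := fun s => by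
    ext k; fin_cases k <;> simp [pt, ee]
  have h1 : HasDerivAt (fun s : ℝ => pt t (z.1, s)) (ee 1) z.2 := by
    have h := ((hasDerivAt_id z.2).smul_const (ee 1)).const_add (pt t (z.1, 0))
    simpa [← hline] using h
  exact hf.hasFDerivAt.comp_hasDerivAt z.2 h1

lemma qd_nonneg (C0 : ℝ) (hκ : 0 < κ) {y : E3} : 0 ≤ qd C0 ρ κ ε v y := by
  have := eX_nonneg (ρ := ρ) (v := v) (y := y)
  have := eT_nonneg (ρ := ρ) (v := v) (y := y) hκ
  have := eE_nonneg (v := v) (y := y) hκ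
  have := pow_nonneg (cut_nonneg ρ y) 6
  unfold qd eF
  positivity

/-- The planar interpolation, integrated over the axis. -/
theorem Datum.planar (D : Datum O v κ ε ρ B Cq) {C0 : ℝ}
    (hcut : ∀ (y : E3) (i j : Fin 3), |pd i (cut ρ) y| ≤ C0 / sc ρ i ∧
      |pd2 i j (cut ρ) y| ≤ C0 / (sc ρ i * sc ρ j)) {W : ℝ} (hW0 : 0 < W)
    (hW : ∫ y in bx ρ, |pd 2 (w4 ρ ε v) y| ≤ W) :
    ∫ y in bx ρ, u6 ρ ε v y ^ 2 ≤ 4 * W * ∫ y in bx ρ, qd C0 ρ κ ε v y := by
  have hρ := D.rho_pos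
  have hκ := D.kappa_pos
  have hpt : ∀ y ∈ bx ρ, ∀ i : Fin 3, i ≠ 2 → ∀ μ : ℝ, 0 < μ →
      |pd i (u6 ρ ε v) y| ≤ μ * w4 ρ ε v y + qd C0 ρ κ ε v y / μ := by
    intro y hy i hi μ hμ
    have hg : 0 ≤ gg ε v y := D.gg_nonneg y
    have hη0 := cut_nonneg ρ y
    have hr := D.grad_pos y hy
    have hs := Real.sqrt_nonneg (gg ε v y)
    set a := √(gg ε v y) * cut ρ y ^ 2 with ha
    set b := 6 * C0 / ρ * (cut ρ y ^ 3 * gg ε v y) +
      3 / 2 * (cut ρ y ^ 4 * |defectD ε (gnorm v y) * an v i y|) with hb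
    have h1 : |pd i (u6 ρ ε v) y| ≤ a * b := by
      rw [(D.pd_u6 hy i).2]
      refine (abs_add_le _ _).trans ?_
      have e1 : |6 * cut ρ y ^ 5 * pd i (cut ρ) y * (gg ε v y * √(gg ε v y))| ≤
          a * (6 * C0 / ρ * (cut ρ y ^ 3 * gg ε v y)) := by
        rw [abs_mul, abs_mul, abs_of_nonneg (show (0 : ℝ) ≤ 6 * cut ρ y ^ 5 by positivity),
          abs_of_nonneg (show 0 ≤ gg ε v y * √(gg ε v y) by positivity)]
        have hci := (hcut y i i).1
        rw [sc, if_neg hi] at hci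
        calc 6 * cut ρ y ^ 5 * |pd i (cut ρ) y| * (gg ε v y * √(gg ε v y))
            ≤ 6 * cut ρ y ^ 5 * (C0 / ρ) * (gg ε v y * √(gg ε v y)) := by gcongr
          _ = _ := by rw [ha]; ring
      have e2 : |3 / 2 * cut ρ y ^ 6 * (√(gg ε v y) * (defectD ε (gnorm v y) * an v i y))| =
          a * (3 / 2 * (cut ρ y ^ 4 * |defectD ε (gnorm v y) * an v i y|)) := by
        rw [abs_mul, abs_of_nonneg (show (0 : ℝ) ≤ 3 / 2 * cut ρ y ^ 6 by positivity), abs_mul,
          abs_of_nonneg hs, ha]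
        ring
      rw [hb, mul_add]
      linarith
    have hq : b ^ 2 / 4 ≤ qd C0 ρ κ ε v y := by
      have hd : (cut ρ y ^ 4 * |defectD ε (gnorm v y) * an v i y|) ^ 2 ≤
          5 / 2 * (eX ρ v y + eT ρ κ v y + 2 * eE κ v y) := by
        rw [mul_pow, sq_abs, mul_pow]
        have hd' := abs_defectD_le D.eps_pos (gnorm v y)
        have hnn : 0 ≤ 5 / 2 * (eX ρ v y + eT ρ κ v y + 2 * eE κ v y) := by
          have := eX_nonneg (ρ := ρ) (v := v) (y := y)
          have := eT_nonneg (ρ := ρ) (v := v) (y := y) hκ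
          have := eE_nonneg (v := v) (y := y) hκ
          positivity
        split_ifs at hd' with hr5
        · have h2 : defectD ε (gnorm v y) ^ 2 ≤ 1 := by
            rw [← sq_abs]; exact pow_le_one₀ (abs_nonneg _) hd'
          have h3 : an v i y ^ 2 ≤ bsq v y + (theta κ v y * strc v y ^ 2 +
              2 * (gnorm v y * eE κ v y)) := by
            refine (Finset.single_le_sum (f := fun j => an v j y ^ 2) (fun j _ => sq_nonneg _)
              (Finset.mem_univ i)).trans ?_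
            rw [sum_an_sq hr]
            linarith [sig_sq_le' hκ hr, (res_bounds hκ hr).2]
          have h4 : cut ρ y ^ 8 * (gnorm v y * eE κ v y) ≤ gnorm v y * eE κ v y :=
            mul_le_of_le_one_left (mul_nonneg hr.le (eE_nonneg hκ))
              (pow_le_one₀ hη0 (cut_le_one ρ y))
          have e : cut ρ y ^ 8 * bsq v y + cut ρ y ^ 8 * (theta κ v y * strc v y ^ 2) =
              gnorm v y * (eX ρ v y + eT ρ κ v y) := by
            unfold eX eT; field_simp
          calc (cut ρ y ^ 4) ^ 2 * (defectD ε (gnorm v y) ^ 2 * an v i y ^ 2)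
              ≤ (cut ρ y ^ 4) ^ 2 * (1 * (bsq v y + (theta κ v y * strc v y ^ 2 +
                  2 * (gnorm v y * eE κ v y)))) := by gcongr
            _ ≤ gnorm v y * (eX ρ v y + eT ρ κ v y + 2 * eE κ v y) := by linarith
            _ ≤ _ := by
              refine mul_le_mul_of_nonneg_right hr5 ?_
              linarith
        · rw [abs_nonpos_iff.1 hd']
          simpa using hnn
      have he : (6 * C0 / ρ * (cut ρ y ^ 3 * gg ε v y)) ^ 2 = 36 * C0 ^ 2 / ρ ^ 2 * eF ρ ε v y := by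
        unfold eF; ring
      rw [hb, qd]
      have := eX_nonneg (ρ := ρ) (v := v) (y := y)
      have := eT_nonneg (ρ := ρ) (v := v) (y := y) hκ
      have := eE_nonneg (v := v) (y := y) hκ
      generalize 6 * C0 / ρ * (cut ρ y ^ 3 * gg ε v y) = x at he ⊢
      generalize cut ρ y ^ 4 * |defectD ε (gnorm v y) * an v i y| = z at hd ⊢
      have hsum : (x + 3 / 2 * z) ^ 2 / 4 ≤ x ^ 2 / 2 + 9 / 8 * z ^ 2 := by
        nlinarith [sq_nonneg (x - 3 / 2 * z)]
      rw [he] at hsum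
      refine hsum.trans ?_
      have : 36 * C0 ^ 2 / ρ ^ 2 * eF ρ ε v y / 2 = 18 * C0 ^ 2 / ρ ^ 2 * eF ρ ε v y := by ring
      rw [this]
      generalize 18 * C0 ^ 2 / ρ ^ 2 * eF ρ ε v y = T
      linarith only [hd, eX_nonneg (ρ := ρ) (v := v) (y := y), eT_nonneg (ρ := ρ) (v := v) (y := y) hκ,
        eE_nonneg (v := v) (y := y) hκ]
    refine h1.trans (le_trans ?_ (add_le_add_right
      (div_le_div_of_nonneg_right hq hμ.le) _))
    have e : w4 ρ ε v y = a ^ 2 := by rw [w4, ha, mul_pow, Real.sq_sqrt hg]; ring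
    rw [e]
    have : μ * a ^ 2 + b ^ 2 / 4 / μ = ((2 * μ * a) ^ 2 + b ^ 2) / (4 * μ) := by field_simp; ring
    rw [this, le_div_iff₀ (by positivity)]
    nlinarith [sq_nonneg (2 * μ * a - b)]
  have hslice : ∀ t ∈ Icc (-(13 / 25 : ℝ)) (13 / 25),
      ∫ z in sq (13 / 25 * ρ), u6 ρ ε v (pt t z) ^ 2 ≤
        4 * W * ∫ z in sq (13 / 25 * ρ), qd C0 ρ κ ε v (pt t z) := by
    intro t ht
    set P := ∫ z in sq (13 / 25 * ρ), qd C0 ρ κ ε v (pt t z) with hP
    have hP0 : 0 ≤ P := setIntegral_nonneg (isCompact_sq _).measurableSet fun _ _ =>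
      qd_nonneg C0 hκ
    have hbound : ∀ i : Fin 3, i ≠ 2 →
        (∫ z in sq (13 / 25 * ρ), |pd i (u6 ρ ε v) (pt t z)|) ^ 2 ≤ 4 * W * P := by
      intro i hi
      refine sq_le_of_forall_mu (setIntegral_nonneg (isCompact_sq _).measurableSet
        fun _ _ => abs_nonneg _) hW0 hP0 fun μ hμ => ?_
      have c1 := (cont_slice D.cont_w4 ht)
      have c2 := (cont_slice (D.cont_qd C0) ht)
      refine (setIntegral_mono_on
        ((cont_slice (D.cont_pd_u6 i) ht).abs.integrableOn_compact (isCompact_sq _))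
        (((continuousOn_const.fun_mul c1).fun_add (c2.div_const μ)).integrableOn_compact
          (isCompact_sq _)) (isCompact_sq _).measurableSet
        fun z hz => hpt _ (pt_mem_bx.2 ⟨ht, hz⟩) i hi μ hμ).trans ?_
      rw [integral_add ((continuousOn_const.fun_mul c1).integrableOn_compact (isCompact_sq _))
        ((c2.div_const μ).integrableOn_compact (isCompact_sq _)), integral_const_mul, integral_div,
        ← hP]
      exact add_le_add_left (mul_le_mul_of_nonneg_left ((D.slice_mass ht).trans hW) hμ.le) _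
    have hz0 : ∀ z : ℝ × ℝ, (13 / 25 * ρ ≤ |z.1| ∨ 13 / 25 * ρ ≤ |z.2|) →
        u6 ρ ε v (pt t z) = 0 := fun z hz => by
      rw [u6, cut_eq_zero hρ (by rcases hz with h | h; exacts [.inl h, .inr (.inl h)])]
      simp
    have hg := integral_sq_le_mul (w := 13 / 25 * ρ) (cont_slice D.cont_u6 ht)
      (cont_slice (D.cont_pd_u6 0) ht) (cont_slice (D.cont_pd_u6 1) ht)
      (fun z hz => hasDerivAt_pt_first (D.pd_u6 (pt_mem_bx.2 ⟨ht, hz⟩) 0).1)
      (fun z hz => hasDerivAt_pt_second (D.pd_u6 (pt_mem_bx.2 ⟨ht, hz⟩) 1).1)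
      (fun b _ => hz0 _ (Or.inl (by rw [abs_neg]; exact le_abs_self _)))
      (fun a _ => hz0 _ (Or.inr (by rw [abs_neg]; exact le_abs_self _)))
    nlinarith [hbound 0 (by decide), hbound 1 (by decide),
      sq_nonneg ((∫ z in sq (13 / 25 * ρ), |pd 0 (u6 ρ ε v) (pt t z)|) -
        ∫ z in sq (13 / 25 * ρ), |pd 1 (u6 ρ ε v) (pt t z)|)]
  have hc2 : ContinuousOn (fun y => u6 ρ ε v y ^ 2) (bx ρ) := D.cont_u6.pow 2
  have hint : ∀ {f : E3 → ℝ}, ContinuousOn f (bx ρ) →
      IntegrableOn (fun t => ∫ z in sq (13 / 25 * ρ), f (pt t z))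
        (Icc (-(13 / 25 : ℝ)) (13 / 25)) := by
    intro f hf
    have hi := (continuousOn_pt_comp hf).integrableOn_compact (μ := volume)
      (isCompact_Icc.prod (isCompact_sq (13 / 25 * ρ)))
    rw [Measure.volume_eq_prod, IntegrableOn, ← Measure.prod_restrict] at hi
    exact hi.integral_prod_left
  rw [bx, setIntegral_box hc2, setIntegral_box (D.cont_qd C0), ← integral_const_mul]
  exact setIntegral_mono_on (hint hc2) ((hint (D.cont_qd C0)).const_mul _) measurableSet_Icc hslice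

/-- The interpolation between the first and the third power. -/
theorem Datum.interp (D : Datum O v κ ε ρ B Cq) {G : ℝ} (hG0 : 0 < G)
    (hG : ∫ y in bx ρ, gg ε v y ≤ G) :
    (∫ y in bx ρ, eF ρ ε v y) ^ 2 ≤ G * ∫ y in bx ρ, u6 ρ ε v y ^ 2 := by
  have hU : 0 ≤ ∫ y in bx ρ, u6 ρ ε v y ^ 2 := setIntegral_bx_nonneg fun y _ => sq_nonneg _
  have hF0 : 0 ≤ ∫ y in bx ρ, eF ρ ε v y := setIntegral_bx_nonneg fun y _ =>
    mul_nonneg (pow_nonneg (cut_nonneg ρ y) 6) (sq_nonneg _)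
  refine (sq_le_of_forall_mu (P := (∫ y in bx ρ, u6 ρ ε v y ^ 2) / 4) hF0 hG0 (by positivity)
    fun μ hμ => ?_).trans_eq (by ring)
  have c2 : ContinuousOn (fun y => u6 ρ ε v y ^ 2) (bx ρ) := D.cont_u6.pow 2
  refine (setIntegral_bx_mono (g := fun y => μ * gg ε v y + u6 ρ ε v y ^ 2 / (4 * μ)) D.cont_eF
    ((continuousOn_const.fun_mul D.cont_gg).fun_add (c2.div_const _)) fun y _ => ?_).trans ?_
  · have hg : 0 ≤ gg ε v y := D.gg_nonneg y
    have e : u6 ρ ε v y ^ 2 = cut ρ y ^ 12 * gg ε v y ^ 3 := by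
      rw [u6, mul_pow, mul_pow, Real.sq_sqrt hg]; ring
    rw [e, eF]
    have : μ * gg ε v y + cut ρ y ^ 12 * gg ε v y ^ 3 / (4 * μ) =
        gg ε v y * ((2 * μ) ^ 2 + (cut ρ y ^ 6 * gg ε v y) ^ 2) / (4 * μ) := by field_simp; ring
    rw [this, le_div_iff₀ (by positivity)]
    nlinarith [mul_le_mul_of_nonneg_left (two_mul_le_add_sq (2 * μ) (cut ρ y ^ 6 * gg ε v y)) hg]
  · rw [integral_add ((continuousOn_const.fun_mul D.cont_gg).integrableOn_compact (isCompact_bx ρ))
      ((c2.div_const _).integrableOn_compact (isCompact_bx ρ)), integral_const_mul, integral_div,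
      div_div]
    exact add_le_add_left (mul_le_mul_of_nonneg_left hG hμ.le) _

end Vale.Agent.P080C1.Caccio
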